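import Vale.Agent.P030.H605.Ser

/-!
# P030, row NV-G, part 2: the 17 groups of `T/Defs.lean` are flat (power series form, no logarithms)
-/

open PowerSeries

namespace Vale.Agent.P030.H605

open Vale.Agent.P030.T

theorem X_ne : (X : ℚ⟦X⟧) ≠ 0 := X_ne_zero

theorem C_eq (q : ℚ) : (C q : ℚ⟦X⟧) = algebraMap ℚ ℚ⟦X⟧ q := rfl

/-! ### the equations in terms of `D = d/dt` -/

theorem K_D : (1 - X ^ 2) * (d⁄dX ℚ serK + X * d⁄dX ℚ (d⁄dX ℚ serK)) = 2 * (X ^ 2 * d⁄dX ℚ serK) + X * serK := by
  apply mul_left_cancel₀ X_ne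
  have h := K_ode
  simp only [th_eq, C_eq, Derivation.leibniz, smul_eq_mul, derivative_X] at h
  linear_combination (norm := algebra) h

theorem B_D : (1 - X) * ((1 - X ^ 2) * (d⁄dX ℚ serB + X * d⁄dX ℚ (d⁄dX ℚ serB)) - 2 * (X ^ 2 * d⁄dX ℚ serB)
    - X * serB) = - (1 / 4 : ℚ) • (1 : ℚ⟦X⟧) := by
  apply mul_left_cancel₀ X_ne
  have h := B_ode
  simp only [th_eq, C_eq, Derivation.leibniz, smul_eq_mul, derivative_X] at h
  linear_combination (norm := algebra) h

theorem B2_D : (1 - X ^ 2) * (d⁄dX ℚ serB2 + X * d⁄dX ℚ (d⁄dX ℚ serB2))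
    = 2 * (X ^ 2 * d⁄dX ℚ serB2) + X * serB2 - (1 / 4 : ℚ) • (1 : ℚ⟦X⟧) := by
  apply mul_left_cancel₀ X_ne
  have h := B2_ode
  simp only [th_eq, C_eq, Derivation.leibniz, smul_eq_mul, derivative_X] at h
  linear_combination (norm := algebra) h

theorem M_D : (1 - X ^ 2) * (d⁄dX ℚ serM + X * d⁄dX ℚ (d⁄dX ℚ serM)) + 2 * d⁄dX ℚ serK - 2 * (X ^ 2 * d⁄dX ℚ serK)
    = 2 * (X ^ 2 * d⁄dX ℚ serM) + X * serM + 2 * (X * serK) := by
  apply mul_left_cancel₀ X_ne
  have h := M_ode
  simp only [th_eq, C_eq, Derivation.leibniz, smul_eq_mul, derivative_X] at h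
  linear_combination (norm := algebra) h

/-- `Li2 (-t)` -/
noncomputable def li2m : ℚ⟦X⟧ := mk fun n => if n = 0 then 0 else (-1) ^ n / (n : ℚ) ^ 2

theorem D_li2m : X * d⁄dX ℚ li2m = - lgp := by
  rw [← th_eq]
  ext n
  rw [coeff_th]
  rcases n with _ | n
  · simp [lgp]
  · simp only [li2m, lgp, coeff_mk, Nat.succ_ne_zero, if_false, map_neg]
    have : ((n : ℚ) + 1) ≠ 0 := by positivity
    push_cast
    field_simp
    ring

/-- the coefficients of `R` (the third solution at a cusp) -/
noncomputable def cR : ℕ → ℚ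
  | 0 => 0
  | 1 => 0
  | n + 2 => (((n : ℚ) + 1) ^ 2 * cR n - 2 * coeff (n + 2) serK + 2 * coeff n serK
      - 4 * ((n : ℚ) + 2) * coeff (n + 2) serM + 4 * ((n : ℚ) + 1) * coeff n serM)
      / ((n : ℚ) + 2) ^ 2

noncomputable def serR : ℚ⟦X⟧ := mk cR

theorem R_ode : (1 - X ^ 2) * th (th serR) - 2 * (X ^ 2 * th serR) - X ^ 2 * serR
    = 2 - 2 * serK + 2 * (X ^ 2 * serK) - 4 * th serM + 4 * (X ^ 2 * (th serM + serM)) := by
  have e2 : (2 : ℚ⟦X⟧) = C 2 := (map_ofNat (C (R := ℚ)) 2).symm
  have e4 : (4 : ℚ⟦X⟧) = C 4 := (map_ofNat (C (R := ℚ)) 4).symm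
  rw [e2, e4]
  ext n
  rw [sub_mul, one_mul, map_sub, map_sub, map_sub, map_add, map_sub, map_add, map_sub,
    coeff_C_mul', coeff_C_mul', coeff_C_mul', coeff_C_mul', coeff_C_mul']
  rcases n with _ | _ | n
  · simp only [coeff_X_sq_mul_zero]
    simp [serK_zero]
  · simp only [zero_add, coeff_X_sq_mul_one, coeff_th]
    simp [serR, cR, serK_one, serM, coeff_C]
  · rw [add_assoc]
    simp only [coeff_X_sq_mul, map_add, coeff_th]
    simp only [serR, coeff_mk, cR]
    have h0 : coeff (n + (1 + 1)) (C (2 : ℚ)) = 0 := by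
      rw [coeff_C, if_neg (by omega)]
    rw [h0]
    have : ((n : ℚ) + 2) ≠ 0 := by positivity
    rw [show n + (1 + 1) = n + 2 from rfl]
    push_cast
    field_simp
    ring

theorem R_D : (1 - X ^ 2) * (X * d⁄dX ℚ serR + X ^ 2 * d⁄dX ℚ (d⁄dX ℚ serR)) - 2 * (X ^ 3 * d⁄dX ℚ serR)
    - X ^ 2 * serR = 2 - 2 * serK + 2 * (X ^ 2 * serK) - 4 * (X * d⁄dX ℚ serM)
      + 4 * (X ^ 3 * d⁄dX ℚ serM) + 4 * (X ^ 2 * serM) := by
  have h := R_ode
  simp only [th_eq, Derivation.leibniz, smul_eq_mul, derivative_X] at h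
  linear_combination (norm := algebra) h


/-! ### the 17 groups -/

/-- the tuple of the group at the point `x` -/
noncomputable def Phi (x : ℚ) (g : Gp) (j : Fin 8) : ℚ⟦X⟧ := tup0 g j + C x * tup1 g j

/-- the nilpotent part: the coefficient of `T = log t` (formal derivative in `T`) -/
noncomputable def Part : Gp → Fin 8 → ℚ⟦X⟧
  | .vb => tup0 .v2
  | .x1 => fun j => C 2 * tup0 .x2 j
  | _ => fun _ => 0

/-- `m s` with `q d/du = s θ`, `m = 1, (1-t)^2, t^2, (1-t)^2` -/
noncomputable def sloc : Fin 4 → ℚ⟦X⟧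
  | 0 => X ^ 2 - 1
  | 1 => 2 * ((1 + X) * (1 - X))
  | 2 => X ^ 2 - 1
  | 3 => 2 * ((1 + X) * (1 - X))

/-- `m` times the connection `q d/du` in the basis `1, l, L, Li2, f6, f7, (1-u) F, (1-u) θF` -/
noncomputable def Aop (c : Fin 4) (v : Fin 8 → ℚ⟦X⟧) : Fin 8 → ℚ⟦X⟧ :=
  match c with
  | 0 => ![0, 0, -(X * (1 + X)) * v 0, (X ^ 2 - 1) * v 2,
      -(C (1 / 2) * (X * (1 + X))) * v 1 - X * (1 - X) * (v 1 + v 2),
      -(X * (1 + X)) * (C (1 / 2) * v 1 + v 2),
      X * (1 + X) * v 6 + (X ^ 2 - 1) * v 7,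
      (X - X ^ 2) * v 7 - X ^ 2 * v 6 + C (1 / 4) * (X * v 0)]
  | 1 => ![0, 0, -(2 * (X * (1 + X))) * v 0, 4 * X * v 2,
      -(X * (1 + X)) * v 1 + 2 * (1 + X) * (v 1 + v 2),
      -(2 * (X * (1 + X))) * (C (1 / 2) * v 1 + v 2),
      2 * (X * (1 + X)) * v 6 + 4 * X * v 7,
      -(2 * (1 + X)) * v 7 - (1 + X) ^ 2 * v 6 - C (1 / 4) * ((1 + X) * (1 - X) * v 0)]
  | 2 => ![0, 0, -(1 + X) * v 0, (1 - X ^ 2) * v 2,
      -(C (1 / 2) * (1 + X)) * v 1 + (1 - X) * (v 1 + v 2),
      -(1 + X) * (C (1 / 2) * v 1 + v 2),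
      (1 + X) * v 6 + (1 - X ^ 2) * v 7,
      (X - 1) * v 7 - v 6 + C (1 / 4) * (X * v 0)]
  | 3 => ![0, 0, -(2 * (1 + X)) * v 0, 4 * X * v 2,
      -(1 + X) * v 1 + 2 * (X * (1 + X)) * (v 1 + v 2),
      -(2 * (1 + X)) * (C (1 / 2) * v 1 + v 2),
      2 * (1 + X) * v 6 + 4 * X * v 7,
      -(2 * (X * (1 + X))) * v 7 - (1 + X) ^ 2 * v 6 + C (1 / 4) * ((1 + X) * (1 - X) * v 0)]



theorem flat_z1 (x : ℚ) (j : Fin 8) : sloc (Gp.cusp .z1) * (th (Phi x .z1 j) + Part .z1 j)
    = Aop (Gp.cusp .z1) (Phi x .z1) j := by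
  fin_cases j
  · simp only [Phi, Part, tup0, tup1, Gp.cusp, sloc, Aop, tw, sc, th_eq, dd_eq, C_eq,
      Matrix.cons_val, Fin.zero_eta, Fin.mk_one, Fin.reduceFinMk, Fin.isValue, map_add, map_sub,
      map_neg, Derivation.map_algebraMap, Derivation.leibniz, Derivation.leibniz_pow,
      smul_eq_mul, nsmul_eq_mul, derivative_X, Derivation.map_one_eq_zero, map_zero, D_integ]
    try algebra
  · simp only [Phi, Part, tup0, tup1, Gp.cusp, sloc, Aop, tw, sc, th_eq, dd_eq, C_eq,
      Matrix.cons_val, Fin.zero_eta, Fin.mk_one, Fin.reduceFinMk, Fin.isValue, map_add, map_sub,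
      map_neg, Derivation.map_algebraMap, Derivation.leibniz, Derivation.leibniz_pow,
      smul_eq_mul, nsmul_eq_mul, derivative_X, Derivation.map_one_eq_zero, map_zero, D_integ]
    try algebra
  · simp only [Phi, Part, tup0, tup1, Gp.cusp, sloc, Aop, tw, sc, th_eq, dd_eq, C_eq,
      Matrix.cons_val, Fin.zero_eta, Fin.mk_one, Fin.reduceFinMk, Fin.isValue, map_add, map_sub,
      map_neg, Derivation.map_algebraMap, Derivation.leibniz, Derivation.leibniz_pow,
      smul_eq_mul, nsmul_eq_mul, derivative_X, Derivation.map_one_eq_zero, map_zero, D_integ]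
    linear_combination (norm := algebra) (1 : ℚ) • (-(X * (1 + X))) * D_lgm
  · simp only [Phi, Part, tup0, tup1, Gp.cusp, sloc, Aop, tw, sc, th_eq, dd_eq, C_eq,
      Matrix.cons_val, Fin.zero_eta, Fin.mk_one, Fin.reduceFinMk, Fin.isValue, map_add, map_sub,
      map_neg, Derivation.map_algebraMap, Derivation.leibniz, Derivation.leibniz_pow,
      smul_eq_mul, nsmul_eq_mul, derivative_X, Derivation.map_one_eq_zero, map_zero, D_integ]
    linear_combination (norm := algebra) (1 : ℚ) • (X ^ 2 - 1) * D_li2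
  · simp only [Phi, Part, tup0, tup1, Gp.cusp, sloc, Aop, tw, sc, th_eq, dd_eq, C_eq,
      Matrix.cons_val, Fin.zero_eta, Fin.mk_one, Fin.reduceFinMk, Fin.isValue, map_add, map_sub,
      map_neg, Derivation.map_algebraMap, Derivation.leibniz, Derivation.leibniz_pow,
      smul_eq_mul, nsmul_eq_mul, derivative_X, Derivation.map_one_eq_zero, map_zero, D_integ]
    linear_combination (norm := algebra) (1 : ℚ) • ((-(X * (1 - X))) * lgm) * geoa_mul
  · simp only [Phi, Part, tup0, tup1, Gp.cusp, sloc, Aop, tw, sc, th_eq, dd_eq, C_eq,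
      Matrix.cons_val, Fin.zero_eta, Fin.mk_one, Fin.reduceFinMk, Fin.isValue, map_add, map_sub,
      map_neg, Derivation.map_algebraMap, Derivation.leibniz, Derivation.leibniz_pow,
      smul_eq_mul, nsmul_eq_mul, derivative_X, Derivation.map_one_eq_zero, map_zero, D_integ]
    linear_combination (norm := algebra) (1 : ℚ) • ((-(X * (1 + X))) * lgm) * D_lgm
  · simp only [Phi, Part, tup0, tup1, Gp.cusp, sloc, Aop, tw, sc, th_eq, dd_eq, C_eq,
      Matrix.cons_val, Fin.zero_eta, Fin.mk_one, Fin.reduceFinMk, Fin.isValue, map_add, map_sub,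
      map_neg, Derivation.map_algebraMap, Derivation.leibniz, Derivation.leibniz_pow,
      smul_eq_mul, nsmul_eq_mul, derivative_X, Derivation.map_one_eq_zero, map_zero, D_integ]
    try algebra
  · simp only [Phi, Part, tup0, tup1, Gp.cusp, sloc, Aop, tw, sc, th_eq, dd_eq, C_eq,
      Matrix.cons_val, Fin.zero_eta, Fin.mk_one, Fin.reduceFinMk, Fin.isValue, map_add, map_sub,
      map_neg, Derivation.map_algebraMap, Derivation.leibniz, Derivation.leibniz_pow,
      smul_eq_mul, nsmul_eq_mul, derivative_X, Derivation.map_one_eq_zero, map_zero, D_integ]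
    linear_combination (norm := algebra) (-X) * B_D + x • (X * (1 - X)) * K_D

theorem flat_zl (x : ℚ) (j : Fin 8) : sloc (Gp.cusp .zl) * (th (Phi x .zl j) + Part .zl j)
    = Aop (Gp.cusp .zl) (Phi x .zl) j := by
  fin_cases j
  · simp only [Phi, Part, tup0, tup1, Gp.cusp, sloc, Aop, tw, sc, th_eq, dd_eq, C_eq,
      Matrix.cons_val, Fin.zero_eta, Fin.mk_one, Fin.reduceFinMk, Fin.isValue, map_add, map_sub,
      map_neg, Derivation.map_algebraMap, Derivation.leibniz, Derivation.leibniz_pow,
      smul_eq_mul, nsmul_eq_mul, derivative_X, Derivation.map_one_eq_zero, map_zero, D_integ]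
    try algebra
  · simp only [Phi, Part, tup0, tup1, Gp.cusp, sloc, Aop, tw, sc, th_eq, dd_eq, C_eq,
      Matrix.cons_val, Fin.zero_eta, Fin.mk_one, Fin.reduceFinMk, Fin.isValue, map_add, map_sub,
      map_neg, Derivation.map_algebraMap, Derivation.leibniz, Derivation.leibniz_pow,
      smul_eq_mul, nsmul_eq_mul, derivative_X, Derivation.map_one_eq_zero, map_zero, D_integ]
    try algebra
  · simp only [Phi, Part, tup0, tup1, Gp.cusp, sloc, Aop, tw, sc, th_eq, dd_eq, C_eq,
      Matrix.cons_val, Fin.zero_eta, Fin.mk_one, Fin.reduceFinMk, Fin.isValue, map_add, map_sub,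
      map_neg, Derivation.map_algebraMap, Derivation.leibniz, Derivation.leibniz_pow,
      smul_eq_mul, nsmul_eq_mul, derivative_X, Derivation.map_one_eq_zero, map_zero, D_integ]
    try algebra
  · simp only [Phi, Part, tup0, tup1, Gp.cusp, sloc, Aop, tw, sc, th_eq, dd_eq, C_eq,
      Matrix.cons_val, Fin.zero_eta, Fin.mk_one, Fin.reduceFinMk, Fin.isValue, map_add, map_sub,
      map_neg, Derivation.map_algebraMap, Derivation.leibniz, Derivation.leibniz_pow,
      smul_eq_mul, nsmul_eq_mul, derivative_X, Derivation.map_one_eq_zero, map_zero, D_integ]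
    try algebra
  · simp only [Phi, Part, tup0, tup1, Gp.cusp, sloc, Aop, tw, sc, th_eq, dd_eq, C_eq,
      Matrix.cons_val, Fin.zero_eta, Fin.mk_one, Fin.reduceFinMk, Fin.isValue, map_add, map_sub,
      map_neg, Derivation.map_algebraMap, Derivation.leibniz, Derivation.leibniz_pow,
      smul_eq_mul, nsmul_eq_mul, derivative_X, Derivation.map_one_eq_zero, map_zero, D_integ]
    linear_combination (norm := algebra) (1 / 2 : ℚ) • (-(X * (1 + X))) * D_lgm + (1 : ℚ) • (-(X * (1 - X))) * D_lgp
  · simp only [Phi, Part, tup0, tup1, Gp.cusp, sloc, Aop, tw, sc, th_eq, dd_eq, C_eq,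
      Matrix.cons_val, Fin.zero_eta, Fin.mk_one, Fin.reduceFinMk, Fin.isValue, map_add, map_sub,
      map_neg, Derivation.map_algebraMap, Derivation.leibniz, Derivation.leibniz_pow,
      smul_eq_mul, nsmul_eq_mul, derivative_X, Derivation.map_one_eq_zero, map_zero, D_integ]
    linear_combination (norm := algebra) (1 / 2 : ℚ) • (-(X * (1 + X))) * D_lgm
  · simp only [Phi, Part, tup0, tup1, Gp.cusp, sloc, Aop, tw, sc, th_eq, dd_eq, C_eq,
      Matrix.cons_val, Fin.zero_eta, Fin.mk_one, Fin.reduceFinMk, Fin.isValue, map_add, map_sub,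
      map_neg, Derivation.map_algebraMap, Derivation.leibniz, Derivation.leibniz_pow,
      smul_eq_mul, nsmul_eq_mul, derivative_X, Derivation.map_one_eq_zero, map_zero, D_integ]
    try algebra
  · simp only [Phi, Part, tup0, tup1, Gp.cusp, sloc, Aop, tw, sc, th_eq, dd_eq, C_eq,
      Matrix.cons_val, Fin.zero_eta, Fin.mk_one, Fin.reduceFinMk, Fin.isValue, map_add, map_sub,
      map_neg, Derivation.map_algebraMap, Derivation.leibniz, Derivation.leibniz_pow,
      smul_eq_mul, nsmul_eq_mul, derivative_X, Derivation.map_one_eq_zero, map_zero, D_integ]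
    try algebra

theorem flat_z8 (x : ℚ) (j : Fin 8) : sloc (Gp.cusp .z8) * (th (Phi x .z8 j) + Part .z8 j)
    = Aop (Gp.cusp .z8) (Phi x .z8) j := by
  fin_cases j
  · simp only [Phi, Part, tup0, tup1, Gp.cusp, sloc, Aop, tw, sc, th_eq, dd_eq, C_eq,
      Matrix.cons_val, Fin.zero_eta, Fin.mk_one, Fin.reduceFinMk, Fin.isValue, map_add, map_sub,
      map_neg, Derivation.map_algebraMap, Derivation.leibniz, Derivation.leibniz_pow,
      smul_eq_mul, nsmul_eq_mul, derivative_X, Derivation.map_one_eq_zero, map_zero, D_integ]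
    try algebra
  · simp only [Phi, Part, tup0, tup1, Gp.cusp, sloc, Aop, tw, sc, th_eq, dd_eq, C_eq,
      Matrix.cons_val, Fin.zero_eta, Fin.mk_one, Fin.reduceFinMk, Fin.isValue, map_add, map_sub,
      map_neg, Derivation.map_algebraMap, Derivation.leibniz, Derivation.leibniz_pow,
      smul_eq_mul, nsmul_eq_mul, derivative_X, Derivation.map_one_eq_zero, map_zero, D_integ]
    try algebra
  · simp only [Phi, Part, tup0, tup1, Gp.cusp, sloc, Aop, tw, sc, th_eq, dd_eq, C_eq,
      Matrix.cons_val, Fin.zero_eta, Fin.mk_one, Fin.reduceFinMk, Fin.isValue, map_add, map_sub,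
      map_neg, Derivation.map_algebraMap, Derivation.leibniz, Derivation.leibniz_pow,
      smul_eq_mul, nsmul_eq_mul, derivative_X, Derivation.map_one_eq_zero, map_zero, D_integ]
    try algebra
  · simp only [Phi, Part, tup0, tup1, Gp.cusp, sloc, Aop, tw, sc, th_eq, dd_eq, C_eq,
      Matrix.cons_val, Fin.zero_eta, Fin.mk_one, Fin.reduceFinMk, Fin.isValue, map_add, map_sub,
      map_neg, Derivation.map_algebraMap, Derivation.leibniz, Derivation.leibniz_pow,
      smul_eq_mul, nsmul_eq_mul, derivative_X, Derivation.map_one_eq_zero, map_zero, D_integ]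
    try algebra
  · simp only [Phi, Part, tup0, tup1, Gp.cusp, sloc, Aop, tw, sc, th_eq, dd_eq, C_eq,
      Matrix.cons_val, Fin.zero_eta, Fin.mk_one, Fin.reduceFinMk, Fin.isValue, map_add, map_sub,
      map_neg, Derivation.map_algebraMap, Derivation.leibniz, Derivation.leibniz_pow,
      smul_eq_mul, nsmul_eq_mul, derivative_X, Derivation.map_one_eq_zero, map_zero, D_integ]
    try algebra
  · simp only [Phi, Part, tup0, tup1, Gp.cusp, sloc, Aop, tw, sc, th_eq, dd_eq, C_eq,
      Matrix.cons_val, Fin.zero_eta, Fin.mk_one, Fin.reduceFinMk, Fin.isValue, map_add, map_sub,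
      map_neg, Derivation.map_algebraMap, Derivation.leibniz, Derivation.leibniz_pow,
      smul_eq_mul, nsmul_eq_mul, derivative_X, Derivation.map_one_eq_zero, map_zero, D_integ]
    try algebra
  · simp only [Phi, Part, tup0, tup1, Gp.cusp, sloc, Aop, tw, sc, th_eq, dd_eq, C_eq,
      Matrix.cons_val, Fin.zero_eta, Fin.mk_one, Fin.reduceFinMk, Fin.isValue, map_add, map_sub,
      map_neg, Derivation.map_algebraMap, Derivation.leibniz, Derivation.leibniz_pow,
      smul_eq_mul, nsmul_eq_mul, derivative_X, Derivation.map_one_eq_zero, map_zero, D_integ]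
    try algebra
  · simp only [Phi, Part, tup0, tup1, Gp.cusp, sloc, Aop, tw, sc, th_eq, dd_eq, C_eq,
      Matrix.cons_val, Fin.zero_eta, Fin.mk_one, Fin.reduceFinMk, Fin.isValue, map_add, map_sub,
      map_neg, Derivation.map_algebraMap, Derivation.leibniz, Derivation.leibniz_pow,
      smul_eq_mul, nsmul_eq_mul, derivative_X, Derivation.map_one_eq_zero, map_zero, D_integ]
    linear_combination (norm := algebra) (-(X * (1 - X))) * K_D

theorem flat_zab (x : ℚ) (j : Fin 8) : sloc (Gp.cusp .zab) * (th (Phi x .zab j) + Part .zab j)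
    = Aop (Gp.cusp .zab) (Phi x .zab) j := by
  fin_cases j
  · simp only [Phi, Part, tup0, tup1, Gp.cusp, sloc, Aop, tw, sc, th_eq, dd_eq, C_eq,
      Matrix.cons_val, Fin.zero_eta, Fin.mk_one, Fin.reduceFinMk, Fin.isValue, map_add, map_sub,
      map_neg, Derivation.map_algebraMap, Derivation.leibniz, Derivation.leibniz_pow,
      smul_eq_mul, nsmul_eq_mul, derivative_X, Derivation.map_one_eq_zero, map_zero, D_integ]
    try algebra
  · simp only [Phi, Part, tup0, tup1, Gp.cusp, sloc, Aop, tw, sc, th_eq, dd_eq, C_eq,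
      Matrix.cons_val, Fin.zero_eta, Fin.mk_one, Fin.reduceFinMk, Fin.isValue, map_add, map_sub,
      map_neg, Derivation.map_algebraMap, Derivation.leibniz, Derivation.leibniz_pow,
      smul_eq_mul, nsmul_eq_mul, derivative_X, Derivation.map_one_eq_zero, map_zero, D_integ]
    try algebra
  · simp only [Phi, Part, tup0, tup1, Gp.cusp, sloc, Aop, tw, sc, th_eq, dd_eq, C_eq,
      Matrix.cons_val, Fin.zero_eta, Fin.mk_one, Fin.reduceFinMk, Fin.isValue, map_add, map_sub,
      map_neg, Derivation.map_algebraMap, Derivation.leibniz, Derivation.leibniz_pow,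
      smul_eq_mul, nsmul_eq_mul, derivative_X, Derivation.map_one_eq_zero, map_zero, D_integ]
    try algebra
  · simp only [Phi, Part, tup0, tup1, Gp.cusp, sloc, Aop, tw, sc, th_eq, dd_eq, C_eq,
      Matrix.cons_val, Fin.zero_eta, Fin.mk_one, Fin.reduceFinMk, Fin.isValue, map_add, map_sub,
      map_neg, Derivation.map_algebraMap, Derivation.leibniz, Derivation.leibniz_pow,
      smul_eq_mul, nsmul_eq_mul, derivative_X, Derivation.map_one_eq_zero, map_zero, D_integ]
    try algebra
  · simp only [Phi, Part, tup0, tup1, Gp.cusp, sloc, Aop, tw, sc, th_eq, dd_eq, C_eq,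
      Matrix.cons_val, Fin.zero_eta, Fin.mk_one, Fin.reduceFinMk, Fin.isValue, map_add, map_sub,
      map_neg, Derivation.map_algebraMap, Derivation.leibniz, Derivation.leibniz_pow,
      smul_eq_mul, nsmul_eq_mul, derivative_X, Derivation.map_one_eq_zero, map_zero, D_integ]
    try algebra
  · simp only [Phi, Part, tup0, tup1, Gp.cusp, sloc, Aop, tw, sc, th_eq, dd_eq, C_eq,
      Matrix.cons_val, Fin.zero_eta, Fin.mk_one, Fin.reduceFinMk, Fin.isValue, map_add, map_sub,
      map_neg, Derivation.map_algebraMap, Derivation.leibniz, Derivation.leibniz_pow,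
      smul_eq_mul, nsmul_eq_mul, derivative_X, Derivation.map_one_eq_zero, map_zero, D_integ]
    try algebra
  · simp only [Phi, Part, tup0, tup1, Gp.cusp, sloc, Aop, tw, sc, th_eq, dd_eq, C_eq,
      Matrix.cons_val, Fin.zero_eta, Fin.mk_one, Fin.reduceFinMk, Fin.isValue, map_add, map_sub,
      map_neg, Derivation.map_algebraMap, Derivation.leibniz, Derivation.leibniz_pow,
      smul_eq_mul, nsmul_eq_mul, derivative_X, Derivation.map_one_eq_zero, map_zero, D_integ]
    try algebra
  · simp only [Phi, Part, tup0, tup1, Gp.cusp, sloc, Aop, tw, sc, th_eq, dd_eq, C_eq,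
      Matrix.cons_val, Fin.zero_eta, Fin.mk_one, Fin.reduceFinMk, Fin.isValue, map_add, map_sub,
      map_neg, Derivation.map_algebraMap, Derivation.leibniz, Derivation.leibniz_pow,
      smul_eq_mul, nsmul_eq_mul, derivative_X, Derivation.map_one_eq_zero, map_zero, D_integ]
    try algebra

theorem flat_w1 (x : ℚ) (j : Fin 8) : sloc (Gp.cusp .w1) * (th (Phi x .w1 j) + Part .w1 j)
    = Aop (Gp.cusp .w1) (Phi x .w1) j := by
  fin_cases j
  · simp only [Phi, Part, tup0, tup1, Gp.cusp, sloc, Aop, tw, sc, th_eq, dd_eq, C_eq,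
      Matrix.cons_val, Fin.zero_eta, Fin.mk_one, Fin.reduceFinMk, Fin.isValue, map_add, map_sub,
      map_neg, Derivation.map_algebraMap, Derivation.leibniz, Derivation.leibniz_pow,
      smul_eq_mul, nsmul_eq_mul, derivative_X, Derivation.map_one_eq_zero, map_zero, D_integ]
    try algebra
  · simp only [Phi, Part, tup0, tup1, Gp.cusp, sloc, Aop, tw, sc, th_eq, dd_eq, C_eq,
      Matrix.cons_val, Fin.zero_eta, Fin.mk_one, Fin.reduceFinMk, Fin.isValue, map_add, map_sub,
      map_neg, Derivation.map_algebraMap, Derivation.leibniz, Derivation.leibniz_pow,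
      smul_eq_mul, nsmul_eq_mul, derivative_X, Derivation.map_one_eq_zero, map_zero, D_integ]
    try algebra
  · simp only [Phi, Part, tup0, tup1, Gp.cusp, sloc, Aop, tw, sc, th_eq, dd_eq, C_eq,
      Matrix.cons_val, Fin.zero_eta, Fin.mk_one, Fin.reduceFinMk, Fin.isValue, map_add, map_sub,
      map_neg, Derivation.map_algebraMap, Derivation.leibniz, Derivation.leibniz_pow,
      smul_eq_mul, nsmul_eq_mul, derivative_X, Derivation.map_one_eq_zero, map_zero, D_integ]
    linear_combination (norm := algebra) (-1 : ℚ) • (2 * (X * (1 + X))) * D_lgm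
  · simp only [Phi, Part, tup0, tup1, Gp.cusp, sloc, Aop, tw, sc, th_eq, dd_eq, C_eq,
      Matrix.cons_val, Fin.zero_eta, Fin.mk_one, Fin.reduceFinMk, Fin.isValue, map_add, map_sub,
      map_neg, Derivation.map_algebraMap, Derivation.leibniz, Derivation.leibniz_pow,
      smul_eq_mul, nsmul_eq_mul, derivative_X, Derivation.map_one_eq_zero, map_zero, D_integ]
    linear_combination (norm := algebra) (-2 : ℚ) • ((2 * X) * lgm) * geo2_mul
  · simp only [Phi, Part, tup0, tup1, Gp.cusp, sloc, Aop, tw, sc, th_eq, dd_eq, C_eq,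
      Matrix.cons_val, Fin.zero_eta, Fin.mk_one, Fin.reduceFinMk, Fin.isValue, map_add, map_sub,
      map_neg, Derivation.map_algebraMap, Derivation.leibniz, Derivation.leibniz_pow,
      smul_eq_mul, nsmul_eq_mul, derivative_X, Derivation.map_one_eq_zero, map_zero, D_integ]
    linear_combination (norm := algebra) (-1 : ℚ) • (2 * (1 + X) * (1 - X)) * D_li2 + (-1 : ℚ) • ((2 * (X * (1 + X))) * lgm) * D_lgm
  · simp only [Phi, Part, tup0, tup1, Gp.cusp, sloc, Aop, tw, sc, th_eq, dd_eq, C_eq,
      Matrix.cons_val, Fin.zero_eta, Fin.mk_one, Fin.reduceFinMk, Fin.isValue, map_add, map_sub,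
      map_neg, Derivation.map_algebraMap, Derivation.leibniz, Derivation.leibniz_pow,
      smul_eq_mul, nsmul_eq_mul, derivative_X, Derivation.map_one_eq_zero, map_zero, D_integ]
    linear_combination (norm := algebra) (1 : ℚ) • ((2 * (X * (1 + X))) * lgm) * D_lgm
  · simp only [Phi, Part, tup0, tup1, Gp.cusp, sloc, Aop, tw, sc, th_eq, dd_eq, C_eq,
      Matrix.cons_val, Fin.zero_eta, Fin.mk_one, Fin.reduceFinMk, Fin.isValue, map_add, map_sub,
      map_neg, Derivation.map_algebraMap, Derivation.leibniz, Derivation.leibniz_pow,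
      smul_eq_mul, nsmul_eq_mul, derivative_X, Derivation.map_one_eq_zero, map_zero, D_integ]
    try algebra
  · simp only [Phi, Part, tup0, tup1, Gp.cusp, sloc, Aop, tw, sc, th_eq, dd_eq, C_eq,
      Matrix.cons_val, Fin.zero_eta, Fin.mk_one, Fin.reduceFinMk, Fin.isValue, map_add, map_sub,
      map_neg, Derivation.map_algebraMap, Derivation.leibniz, Derivation.leibniz_pow,
      smul_eq_mul, nsmul_eq_mul, derivative_X, Derivation.map_one_eq_zero, map_zero, D_integ]
    linear_combination (norm := algebra) ((1 + X) * (1 - X)) * B2_D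

theorem flat_wl (x : ℚ) (j : Fin 8) : sloc (Gp.cusp .wl) * (th (Phi x .wl j) + Part .wl j)
    = Aop (Gp.cusp .wl) (Phi x .wl) j := by
  fin_cases j
  · simp only [Phi, Part, tup0, tup1, Gp.cusp, sloc, Aop, tw, sc, th_eq, dd_eq, C_eq,
      Matrix.cons_val, Fin.zero_eta, Fin.mk_one, Fin.reduceFinMk, Fin.isValue, map_add, map_sub,
      map_neg, Derivation.map_algebraMap, Derivation.leibniz, Derivation.leibniz_pow,
      smul_eq_mul, nsmul_eq_mul, derivative_X, Derivation.map_one_eq_zero, map_zero, D_integ]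
    try algebra
  · simp only [Phi, Part, tup0, tup1, Gp.cusp, sloc, Aop, tw, sc, th_eq, dd_eq, C_eq,
      Matrix.cons_val, Fin.zero_eta, Fin.mk_one, Fin.reduceFinMk, Fin.isValue, map_add, map_sub,
      map_neg, Derivation.map_algebraMap, Derivation.leibniz, Derivation.leibniz_pow,
      smul_eq_mul, nsmul_eq_mul, derivative_X, Derivation.map_one_eq_zero, map_zero, D_integ]
    try algebra
  · simp only [Phi, Part, tup0, tup1, Gp.cusp, sloc, Aop, tw, sc, th_eq, dd_eq, C_eq,
      Matrix.cons_val, Fin.zero_eta, Fin.mk_one, Fin.reduceFinMk, Fin.isValue, map_add, map_sub,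
      map_neg, Derivation.map_algebraMap, Derivation.leibniz, Derivation.leibniz_pow,
      smul_eq_mul, nsmul_eq_mul, derivative_X, Derivation.map_one_eq_zero, map_zero, D_integ]
    try algebra
  · simp only [Phi, Part, tup0, tup1, Gp.cusp, sloc, Aop, tw, sc, th_eq, dd_eq, C_eq,
      Matrix.cons_val, Fin.zero_eta, Fin.mk_one, Fin.reduceFinMk, Fin.isValue, map_add, map_sub,
      map_neg, Derivation.map_algebraMap, Derivation.leibniz, Derivation.leibniz_pow,
      smul_eq_mul, nsmul_eq_mul, derivative_X, Derivation.map_one_eq_zero, map_zero, D_integ]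
    linear_combination (norm := algebra) (-1 : ℚ) • (2 * (X * (1 - X))) * D_lgp + (-1 : ℚ) • (2 * (X * (1 + X))) * D_lgm
  · simp only [Phi, Part, tup0, tup1, Gp.cusp, sloc, Aop, tw, sc, th_eq, dd_eq, C_eq,
      Matrix.cons_val, Fin.zero_eta, Fin.mk_one, Fin.reduceFinMk, Fin.isValue, map_add, map_sub,
      map_neg, Derivation.map_algebraMap, Derivation.leibniz, Derivation.leibniz_pow,
      smul_eq_mul, nsmul_eq_mul, derivative_X, Derivation.map_one_eq_zero, map_zero, D_integ]
    linear_combination (norm := algebra) (-1 / 2 : ℚ) • (2 * (X * (1 + X))) * D_lgm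
  · simp only [Phi, Part, tup0, tup1, Gp.cusp, sloc, Aop, tw, sc, th_eq, dd_eq, C_eq,
      Matrix.cons_val, Fin.zero_eta, Fin.mk_one, Fin.reduceFinMk, Fin.isValue, map_add, map_sub,
      map_neg, Derivation.map_algebraMap, Derivation.leibniz, Derivation.leibniz_pow,
      smul_eq_mul, nsmul_eq_mul, derivative_X, Derivation.map_one_eq_zero, map_zero, D_integ]
    linear_combination (norm := algebra) (1 / 2 : ℚ) • (2 * (X * (1 + X))) * D_lgm
  · simp only [Phi, Part, tup0, tup1, Gp.cusp, sloc, Aop, tw, sc, th_eq, dd_eq, C_eq,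
      Matrix.cons_val, Fin.zero_eta, Fin.mk_one, Fin.reduceFinMk, Fin.isValue, map_add, map_sub,
      map_neg, Derivation.map_algebraMap, Derivation.leibniz, Derivation.leibniz_pow,
      smul_eq_mul, nsmul_eq_mul, derivative_X, Derivation.map_one_eq_zero, map_zero, D_integ]
    try algebra
  · simp only [Phi, Part, tup0, tup1, Gp.cusp, sloc, Aop, tw, sc, th_eq, dd_eq, C_eq,
      Matrix.cons_val, Fin.zero_eta, Fin.mk_one, Fin.reduceFinMk, Fin.isValue, map_add, map_sub,
      map_neg, Derivation.map_algebraMap, Derivation.leibniz, Derivation.leibniz_pow,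
      smul_eq_mul, nsmul_eq_mul, derivative_X, Derivation.map_one_eq_zero, map_zero, D_integ]
    try algebra

theorem flat_wy (x : ℚ) (j : Fin 8) : sloc (Gp.cusp .wy) * (th (Phi x .wy j) + Part .wy j)
    = Aop (Gp.cusp .wy) (Phi x .wy) j := by
  fin_cases j
  · simp only [Phi, Part, tup0, tup1, Gp.cusp, sloc, Aop, tw, sc, th_eq, dd_eq, C_eq,
      Matrix.cons_val, Fin.zero_eta, Fin.mk_one, Fin.reduceFinMk, Fin.isValue, map_add, map_sub,
      map_neg, Derivation.map_algebraMap, Derivation.leibniz, Derivation.leibniz_pow,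
      smul_eq_mul, nsmul_eq_mul, derivative_X, Derivation.map_one_eq_zero, map_zero, D_integ]
    try algebra
  · simp only [Phi, Part, tup0, tup1, Gp.cusp, sloc, Aop, tw, sc, th_eq, dd_eq, C_eq,
      Matrix.cons_val, Fin.zero_eta, Fin.mk_one, Fin.reduceFinMk, Fin.isValue, map_add, map_sub,
      map_neg, Derivation.map_algebraMap, Derivation.leibniz, Derivation.leibniz_pow,
      smul_eq_mul, nsmul_eq_mul, derivative_X, Derivation.map_one_eq_zero, map_zero, D_integ]
    try algebra
  · simp only [Phi, Part, tup0, tup1, Gp.cusp, sloc, Aop, tw, sc, th_eq, dd_eq, C_eq,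
      Matrix.cons_val, Fin.zero_eta, Fin.mk_one, Fin.reduceFinMk, Fin.isValue, map_add, map_sub,
      map_neg, Derivation.map_algebraMap, Derivation.leibniz, Derivation.leibniz_pow,
      smul_eq_mul, nsmul_eq_mul, derivative_X, Derivation.map_one_eq_zero, map_zero, D_integ]
    try algebra
  · simp only [Phi, Part, tup0, tup1, Gp.cusp, sloc, Aop, tw, sc, th_eq, dd_eq, C_eq,
      Matrix.cons_val, Fin.zero_eta, Fin.mk_one, Fin.reduceFinMk, Fin.isValue, map_add, map_sub,
      map_neg, Derivation.map_algebraMap, Derivation.leibniz, Derivation.leibniz_pow,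
      smul_eq_mul, nsmul_eq_mul, derivative_X, Derivation.map_one_eq_zero, map_zero, D_integ]
    try algebra
  · simp only [Phi, Part, tup0, tup1, Gp.cusp, sloc, Aop, tw, sc, th_eq, dd_eq, C_eq,
      Matrix.cons_val, Fin.zero_eta, Fin.mk_one, Fin.reduceFinMk, Fin.isValue, map_add, map_sub,
      map_neg, Derivation.map_algebraMap, Derivation.leibniz, Derivation.leibniz_pow,
      smul_eq_mul, nsmul_eq_mul, derivative_X, Derivation.map_one_eq_zero, map_zero, D_integ]
    try algebra
  · simp only [Phi, Part, tup0, tup1, Gp.cusp, sloc, Aop, tw, sc, th_eq, dd_eq, C_eq,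
      Matrix.cons_val, Fin.zero_eta, Fin.mk_one, Fin.reduceFinMk, Fin.isValue, map_add, map_sub,
      map_neg, Derivation.map_algebraMap, Derivation.leibniz, Derivation.leibniz_pow,
      smul_eq_mul, nsmul_eq_mul, derivative_X, Derivation.map_one_eq_zero, map_zero, D_integ]
    try algebra
  · simp only [Phi, Part, tup0, tup1, Gp.cusp, sloc, Aop, tw, sc, th_eq, dd_eq, C_eq,
      Matrix.cons_val, Fin.zero_eta, Fin.mk_one, Fin.reduceFinMk, Fin.isValue, map_add, map_sub,
      map_neg, Derivation.map_algebraMap, Derivation.leibniz, Derivation.leibniz_pow,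
      smul_eq_mul, nsmul_eq_mul, derivative_X, Derivation.map_one_eq_zero, map_zero, D_integ]
    try algebra
  · simp only [Phi, Part, tup0, tup1, Gp.cusp, sloc, Aop, tw, sc, th_eq, dd_eq, C_eq,
      Matrix.cons_val, Fin.zero_eta, Fin.mk_one, Fin.reduceFinMk, Fin.isValue, map_add, map_sub,
      map_neg, Derivation.map_algebraMap, Derivation.leibniz, Derivation.leibniz_pow,
      smul_eq_mul, nsmul_eq_mul, derivative_X, Derivation.map_one_eq_zero, map_zero, D_integ]
    linear_combination (norm := algebra) (-((1 + X) * (1 - X))) * K_D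

theorem flat_w8 (x : ℚ) (j : Fin 8) : sloc (Gp.cusp .w8) * (th (Phi x .w8 j) + Part .w8 j)
    = Aop (Gp.cusp .w8) (Phi x .w8) j := by
  fin_cases j
  · simp only [Phi, Part, tup0, tup1, Gp.cusp, sloc, Aop, tw, sc, th_eq, dd_eq, C_eq,
      Matrix.cons_val, Fin.zero_eta, Fin.mk_one, Fin.reduceFinMk, Fin.isValue, map_add, map_sub,
      map_neg, Derivation.map_algebraMap, Derivation.leibniz, Derivation.leibniz_pow,
      smul_eq_mul, nsmul_eq_mul, derivative_X, Derivation.map_one_eq_zero, map_zero, D_integ]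
    try algebra
  · simp only [Phi, Part, tup0, tup1, Gp.cusp, sloc, Aop, tw, sc, th_eq, dd_eq, C_eq,
      Matrix.cons_val, Fin.zero_eta, Fin.mk_one, Fin.reduceFinMk, Fin.isValue, map_add, map_sub,
      map_neg, Derivation.map_algebraMap, Derivation.leibniz, Derivation.leibniz_pow,
      smul_eq_mul, nsmul_eq_mul, derivative_X, Derivation.map_one_eq_zero, map_zero, D_integ]
    try algebra
  · simp only [Phi, Part, tup0, tup1, Gp.cusp, sloc, Aop, tw, sc, th_eq, dd_eq, C_eq,
      Matrix.cons_val, Fin.zero_eta, Fin.mk_one, Fin.reduceFinMk, Fin.isValue, map_add, map_sub,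
      map_neg, Derivation.map_algebraMap, Derivation.leibniz, Derivation.leibniz_pow,
      smul_eq_mul, nsmul_eq_mul, derivative_X, Derivation.map_one_eq_zero, map_zero, D_integ]
    try algebra
  · simp only [Phi, Part, tup0, tup1, Gp.cusp, sloc, Aop, tw, sc, th_eq, dd_eq, C_eq,
      Matrix.cons_val, Fin.zero_eta, Fin.mk_one, Fin.reduceFinMk, Fin.isValue, map_add, map_sub,
      map_neg, Derivation.map_algebraMap, Derivation.leibniz, Derivation.leibniz_pow,
      smul_eq_mul, nsmul_eq_mul, derivative_X, Derivation.map_one_eq_zero, map_zero, D_integ]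
    try algebra
  · simp only [Phi, Part, tup0, tup1, Gp.cusp, sloc, Aop, tw, sc, th_eq, dd_eq, C_eq,
      Matrix.cons_val, Fin.zero_eta, Fin.mk_one, Fin.reduceFinMk, Fin.isValue, map_add, map_sub,
      map_neg, Derivation.map_algebraMap, Derivation.leibniz, Derivation.leibniz_pow,
      smul_eq_mul, nsmul_eq_mul, derivative_X, Derivation.map_one_eq_zero, map_zero, D_integ]
    try algebra
  · simp only [Phi, Part, tup0, tup1, Gp.cusp, sloc, Aop, tw, sc, th_eq, dd_eq, C_eq,
      Matrix.cons_val, Fin.zero_eta, Fin.mk_one, Fin.reduceFinMk, Fin.isValue, map_add, map_sub,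
      map_neg, Derivation.map_algebraMap, Derivation.leibniz, Derivation.leibniz_pow,
      smul_eq_mul, nsmul_eq_mul, derivative_X, Derivation.map_one_eq_zero, map_zero, D_integ]
    try algebra
  · simp only [Phi, Part, tup0, tup1, Gp.cusp, sloc, Aop, tw, sc, th_eq, dd_eq, C_eq,
      Matrix.cons_val, Fin.zero_eta, Fin.mk_one, Fin.reduceFinMk, Fin.isValue, map_add, map_sub,
      map_neg, Derivation.map_algebraMap, Derivation.leibniz, Derivation.leibniz_pow,
      smul_eq_mul, nsmul_eq_mul, derivative_X, Derivation.map_one_eq_zero, map_zero, D_integ]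
    try algebra
  · simp only [Phi, Part, tup0, tup1, Gp.cusp, sloc, Aop, tw, sc, th_eq, dd_eq, C_eq,
      Matrix.cons_val, Fin.zero_eta, Fin.mk_one, Fin.reduceFinMk, Fin.isValue, map_add, map_sub,
      map_neg, Derivation.map_algebraMap, Derivation.leibniz, Derivation.leibniz_pow,
      smul_eq_mul, nsmul_eq_mul, derivative_X, Derivation.map_one_eq_zero, map_zero, D_integ]
    linear_combination (norm := algebra) ((1 + X) * (1 - X)) * K_D

theorem flat_wab (x : ℚ) (j : Fin 8) : sloc (Gp.cusp .wab) * (th (Phi x .wab j) + Part .wab j)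
    = Aop (Gp.cusp .wab) (Phi x .wab) j := by
  fin_cases j
  · simp only [Phi, Part, tup0, tup1, Gp.cusp, sloc, Aop, tw, sc, th_eq, dd_eq, C_eq,
      Matrix.cons_val, Fin.zero_eta, Fin.mk_one, Fin.reduceFinMk, Fin.isValue, map_add, map_sub,
      map_neg, Derivation.map_algebraMap, Derivation.leibniz, Derivation.leibniz_pow,
      smul_eq_mul, nsmul_eq_mul, derivative_X, Derivation.map_one_eq_zero, map_zero, D_integ]
    try algebra
  · simp only [Phi, Part, tup0, tup1, Gp.cusp, sloc, Aop, tw, sc, th_eq, dd_eq, C_eq,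
      Matrix.cons_val, Fin.zero_eta, Fin.mk_one, Fin.reduceFinMk, Fin.isValue, map_add, map_sub,
      map_neg, Derivation.map_algebraMap, Derivation.leibniz, Derivation.leibniz_pow,
      smul_eq_mul, nsmul_eq_mul, derivative_X, Derivation.map_one_eq_zero, map_zero, D_integ]
    try algebra
  · simp only [Phi, Part, tup0, tup1, Gp.cusp, sloc, Aop, tw, sc, th_eq, dd_eq, C_eq,
      Matrix.cons_val, Fin.zero_eta, Fin.mk_one, Fin.reduceFinMk, Fin.isValue, map_add, map_sub,
      map_neg, Derivation.map_algebraMap, Derivation.leibniz, Derivation.leibniz_pow,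
      smul_eq_mul, nsmul_eq_mul, derivative_X, Derivation.map_one_eq_zero, map_zero, D_integ]
    try algebra
  · simp only [Phi, Part, tup0, tup1, Gp.cusp, sloc, Aop, tw, sc, th_eq, dd_eq, C_eq,
      Matrix.cons_val, Fin.zero_eta, Fin.mk_one, Fin.reduceFinMk, Fin.isValue, map_add, map_sub,
      map_neg, Derivation.map_algebraMap, Derivation.leibniz, Derivation.leibniz_pow,
      smul_eq_mul, nsmul_eq_mul, derivative_X, Derivation.map_one_eq_zero, map_zero, D_integ]
    try algebra
  · simp only [Phi, Part, tup0, tup1, Gp.cusp, sloc, Aop, tw, sc, th_eq, dd_eq, C_eq,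
      Matrix.cons_val, Fin.zero_eta, Fin.mk_one, Fin.reduceFinMk, Fin.isValue, map_add, map_sub,
      map_neg, Derivation.map_algebraMap, Derivation.leibniz, Derivation.leibniz_pow,
      smul_eq_mul, nsmul_eq_mul, derivative_X, Derivation.map_one_eq_zero, map_zero, D_integ]
    try algebra
  · simp only [Phi, Part, tup0, tup1, Gp.cusp, sloc, Aop, tw, sc, th_eq, dd_eq, C_eq,
      Matrix.cons_val, Fin.zero_eta, Fin.mk_one, Fin.reduceFinMk, Fin.isValue, map_add, map_sub,
      map_neg, Derivation.map_algebraMap, Derivation.leibniz, Derivation.leibniz_pow,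
      smul_eq_mul, nsmul_eq_mul, derivative_X, Derivation.map_one_eq_zero, map_zero, D_integ]
    try algebra
  · simp only [Phi, Part, tup0, tup1, Gp.cusp, sloc, Aop, tw, sc, th_eq, dd_eq, C_eq,
      Matrix.cons_val, Fin.zero_eta, Fin.mk_one, Fin.reduceFinMk, Fin.isValue, map_add, map_sub,
      map_neg, Derivation.map_algebraMap, Derivation.leibniz, Derivation.leibniz_pow,
      smul_eq_mul, nsmul_eq_mul, derivative_X, Derivation.map_one_eq_zero, map_zero, D_integ]
    try algebra
  · simp only [Phi, Part, tup0, tup1, Gp.cusp, sloc, Aop, tw, sc, th_eq, dd_eq, C_eq,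
      Matrix.cons_val, Fin.zero_eta, Fin.mk_one, Fin.reduceFinMk, Fin.isValue, map_add, map_sub,
      map_neg, Derivation.map_algebraMap, Derivation.leibniz, Derivation.leibniz_pow,
      smul_eq_mul, nsmul_eq_mul, derivative_X, Derivation.map_one_eq_zero, map_zero, D_integ]
    try algebra

theorem flat_wf7 (x : ℚ) (j : Fin 8) : sloc (Gp.cusp .wf7) * (th (Phi x .wf7 j) + Part .wf7 j)
    = Aop (Gp.cusp .wf7) (Phi x .wf7) j := by
  fin_cases j
  · simp only [Phi, Part, tup0, tup1, Gp.cusp, sloc, Aop, tw, sc, th_eq, dd_eq, C_eq,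
      Matrix.cons_val, Fin.zero_eta, Fin.mk_one, Fin.reduceFinMk, Fin.isValue, map_add, map_sub,
      map_neg, Derivation.map_algebraMap, Derivation.leibniz, Derivation.leibniz_pow,
      smul_eq_mul, nsmul_eq_mul, derivative_X, Derivation.map_one_eq_zero, map_zero, D_integ]
    try algebra
  · simp only [Phi, Part, tup0, tup1, Gp.cusp, sloc, Aop, tw, sc, th_eq, dd_eq, C_eq,
      Matrix.cons_val, Fin.zero_eta, Fin.mk_one, Fin.reduceFinMk, Fin.isValue, map_add, map_sub,
      map_neg, Derivation.map_algebraMap, Derivation.leibniz, Derivation.leibniz_pow,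
      smul_eq_mul, nsmul_eq_mul, derivative_X, Derivation.map_one_eq_zero, map_zero, D_integ]
    try algebra
  · simp only [Phi, Part, tup0, tup1, Gp.cusp, sloc, Aop, tw, sc, th_eq, dd_eq, C_eq,
      Matrix.cons_val, Fin.zero_eta, Fin.mk_one, Fin.reduceFinMk, Fin.isValue, map_add, map_sub,
      map_neg, Derivation.map_algebraMap, Derivation.leibniz, Derivation.leibniz_pow,
      smul_eq_mul, nsmul_eq_mul, derivative_X, Derivation.map_one_eq_zero, map_zero, D_integ]
    try algebra
  · simp only [Phi, Part, tup0, tup1, Gp.cusp, sloc, Aop, tw, sc, th_eq, dd_eq, C_eq,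
      Matrix.cons_val, Fin.zero_eta, Fin.mk_one, Fin.reduceFinMk, Fin.isValue, map_add, map_sub,
      map_neg, Derivation.map_algebraMap, Derivation.leibniz, Derivation.leibniz_pow,
      smul_eq_mul, nsmul_eq_mul, derivative_X, Derivation.map_one_eq_zero, map_zero, D_integ]
    try algebra
  · simp only [Phi, Part, tup0, tup1, Gp.cusp, sloc, Aop, tw, sc, th_eq, dd_eq, C_eq,
      Matrix.cons_val, Fin.zero_eta, Fin.mk_one, Fin.reduceFinMk, Fin.isValue, map_add, map_sub,
      map_neg, Derivation.map_algebraMap, Derivation.leibniz, Derivation.leibniz_pow,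
      smul_eq_mul, nsmul_eq_mul, derivative_X, Derivation.map_one_eq_zero, map_zero, D_integ]
    try algebra
  · simp only [Phi, Part, tup0, tup1, Gp.cusp, sloc, Aop, tw, sc, th_eq, dd_eq, C_eq,
      Matrix.cons_val, Fin.zero_eta, Fin.mk_one, Fin.reduceFinMk, Fin.isValue, map_add, map_sub,
      map_neg, Derivation.map_algebraMap, Derivation.leibniz, Derivation.leibniz_pow,
      smul_eq_mul, nsmul_eq_mul, derivative_X, Derivation.map_one_eq_zero, map_zero, D_integ]
    try algebra
  · simp only [Phi, Part, tup0, tup1, Gp.cusp, sloc, Aop, tw, sc, th_eq, dd_eq, C_eq,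
      Matrix.cons_val, Fin.zero_eta, Fin.mk_one, Fin.reduceFinMk, Fin.isValue, map_add, map_sub,
      map_neg, Derivation.map_algebraMap, Derivation.leibniz, Derivation.leibniz_pow,
      smul_eq_mul, nsmul_eq_mul, derivative_X, Derivation.map_one_eq_zero, map_zero, D_integ]
    try algebra
  · simp only [Phi, Part, tup0, tup1, Gp.cusp, sloc, Aop, tw, sc, th_eq, dd_eq, C_eq,
      Matrix.cons_val, Fin.zero_eta, Fin.mk_one, Fin.reduceFinMk, Fin.isValue, map_add, map_sub,
      map_neg, Derivation.map_algebraMap, Derivation.leibniz, Derivation.leibniz_pow,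
      smul_eq_mul, nsmul_eq_mul, derivative_X, Derivation.map_one_eq_zero, map_zero, D_integ]
    try algebra

theorem flat_v2 (x : ℚ) (j : Fin 8) : sloc (Gp.cusp .v2) * (th (Phi x .v2 j) + Part .v2 j)
    = Aop (Gp.cusp .v2) (Phi x .v2) j := by
  fin_cases j
  · simp only [Phi, Part, tup0, tup1, Gp.cusp, sloc, Aop, tw, sc, th_eq, dd_eq, C_eq,
      Matrix.cons_val, Fin.zero_eta, Fin.mk_one, Fin.reduceFinMk, Fin.isValue, map_add, map_sub,
      map_neg, Derivation.map_algebraMap, Derivation.leibniz, Derivation.leibniz_pow,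
      smul_eq_mul, nsmul_eq_mul, derivative_X, Derivation.map_one_eq_zero, map_zero, D_integ]
    try algebra
  · simp only [Phi, Part, tup0, tup1, Gp.cusp, sloc, Aop, tw, sc, th_eq, dd_eq, C_eq,
      Matrix.cons_val, Fin.zero_eta, Fin.mk_one, Fin.reduceFinMk, Fin.isValue, map_add, map_sub,
      map_neg, Derivation.map_algebraMap, Derivation.leibniz, Derivation.leibniz_pow,
      smul_eq_mul, nsmul_eq_mul, derivative_X, Derivation.map_one_eq_zero, map_zero, D_integ]
    try algebra
  · simp only [Phi, Part, tup0, tup1, Gp.cusp, sloc, Aop, tw, sc, th_eq, dd_eq, C_eq,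
      Matrix.cons_val, Fin.zero_eta, Fin.mk_one, Fin.reduceFinMk, Fin.isValue, map_add, map_sub,
      map_neg, Derivation.map_algebraMap, Derivation.leibniz, Derivation.leibniz_pow,
      smul_eq_mul, nsmul_eq_mul, derivative_X, Derivation.map_one_eq_zero, map_zero, D_integ]
    try algebra
  · simp only [Phi, Part, tup0, tup1, Gp.cusp, sloc, Aop, tw, sc, th_eq, dd_eq, C_eq,
      Matrix.cons_val, Fin.zero_eta, Fin.mk_one, Fin.reduceFinMk, Fin.isValue, map_add, map_sub,
      map_neg, Derivation.map_algebraMap, Derivation.leibniz, Derivation.leibniz_pow,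
      smul_eq_mul, nsmul_eq_mul, derivative_X, Derivation.map_one_eq_zero, map_zero, D_integ]
    try algebra
  · simp only [Phi, Part, tup0, tup1, Gp.cusp, sloc, Aop, tw, sc, th_eq, dd_eq, C_eq,
      Matrix.cons_val, Fin.zero_eta, Fin.mk_one, Fin.reduceFinMk, Fin.isValue, map_add, map_sub,
      map_neg, Derivation.map_algebraMap, Derivation.leibniz, Derivation.leibniz_pow,
      smul_eq_mul, nsmul_eq_mul, derivative_X, Derivation.map_one_eq_zero, map_zero, D_integ]
    try algebra
  · simp only [Phi, Part, tup0, tup1, Gp.cusp, sloc, Aop, tw, sc, th_eq, dd_eq, C_eq,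
      Matrix.cons_val, Fin.zero_eta, Fin.mk_one, Fin.reduceFinMk, Fin.isValue, map_add, map_sub,
      map_neg, Derivation.map_algebraMap, Derivation.leibniz, Derivation.leibniz_pow,
      smul_eq_mul, nsmul_eq_mul, derivative_X, Derivation.map_one_eq_zero, map_zero, D_integ]
    try algebra
  · simp only [Phi, Part, tup0, tup1, Gp.cusp, sloc, Aop, tw, sc, th_eq, dd_eq, C_eq,
      Matrix.cons_val, Fin.zero_eta, Fin.mk_one, Fin.reduceFinMk, Fin.isValue, map_add, map_sub,
      map_neg, Derivation.map_algebraMap, Derivation.leibniz, Derivation.leibniz_pow,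
      smul_eq_mul, nsmul_eq_mul, derivative_X, Derivation.map_one_eq_zero, map_zero, D_integ]
    try algebra
  · simp only [Phi, Part, tup0, tup1, Gp.cusp, sloc, Aop, tw, sc, th_eq, dd_eq, C_eq,
      Matrix.cons_val, Fin.zero_eta, Fin.mk_one, Fin.reduceFinMk, Fin.isValue, map_add, map_sub,
      map_neg, Derivation.map_algebraMap, Derivation.leibniz, Derivation.leibniz_pow,
      smul_eq_mul, nsmul_eq_mul, derivative_X, Derivation.map_one_eq_zero, map_zero, D_integ]
    try algebra

theorem flat_vl (x : ℚ) (j : Fin 8) : sloc (Gp.cusp .vl) * (th (Phi x .vl j) + Part .vl j)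
    = Aop (Gp.cusp .vl) (Phi x .vl) j := by
  fin_cases j
  · simp only [Phi, Part, tup0, tup1, Gp.cusp, sloc, Aop, tw, sc, th_eq, dd_eq, C_eq,
      Matrix.cons_val, Fin.zero_eta, Fin.mk_one, Fin.reduceFinMk, Fin.isValue, map_add, map_sub,
      map_neg, Derivation.map_algebraMap, Derivation.leibniz, Derivation.leibniz_pow,
      smul_eq_mul, nsmul_eq_mul, derivative_X, Derivation.map_one_eq_zero, map_zero, D_integ]
    try algebra
  · simp only [Phi, Part, tup0, tup1, Gp.cusp, sloc, Aop, tw, sc, th_eq, dd_eq, C_eq,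
      Matrix.cons_val, Fin.zero_eta, Fin.mk_one, Fin.reduceFinMk, Fin.isValue, map_add, map_sub,
      map_neg, Derivation.map_algebraMap, Derivation.leibniz, Derivation.leibniz_pow,
      smul_eq_mul, nsmul_eq_mul, derivative_X, Derivation.map_one_eq_zero, map_zero, D_integ]
    try algebra
  · simp only [Phi, Part, tup0, tup1, Gp.cusp, sloc, Aop, tw, sc, th_eq, dd_eq, C_eq,
      Matrix.cons_val, Fin.zero_eta, Fin.mk_one, Fin.reduceFinMk, Fin.isValue, map_add, map_sub,
      map_neg, Derivation.map_algebraMap, Derivation.leibniz, Derivation.leibniz_pow,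
      smul_eq_mul, nsmul_eq_mul, derivative_X, Derivation.map_one_eq_zero, map_zero, D_integ]
    try algebra
  · simp only [Phi, Part, tup0, tup1, Gp.cusp, sloc, Aop, tw, sc, th_eq, dd_eq, C_eq,
      Matrix.cons_val, Fin.zero_eta, Fin.mk_one, Fin.reduceFinMk, Fin.isValue, map_add, map_sub,
      map_neg, Derivation.map_algebraMap, Derivation.leibniz, Derivation.leibniz_pow,
      smul_eq_mul, nsmul_eq_mul, derivative_X, Derivation.map_one_eq_zero, map_zero, D_integ]
    try algebra
  · simp only [Phi, Part, tup0, tup1, Gp.cusp, sloc, Aop, tw, sc, th_eq, dd_eq, C_eq,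
      Matrix.cons_val, Fin.zero_eta, Fin.mk_one, Fin.reduceFinMk, Fin.isValue, map_add, map_sub,
      map_neg, Derivation.map_algebraMap, Derivation.leibniz, Derivation.leibniz_pow,
      smul_eq_mul, nsmul_eq_mul, derivative_X, Derivation.map_one_eq_zero, map_zero, D_integ]
    try algebra
  · simp only [Phi, Part, tup0, tup1, Gp.cusp, sloc, Aop, tw, sc, th_eq, dd_eq, C_eq,
      Matrix.cons_val, Fin.zero_eta, Fin.mk_one, Fin.reduceFinMk, Fin.isValue, map_add, map_sub,
      map_neg, Derivation.map_algebraMap, Derivation.leibniz, Derivation.leibniz_pow,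
      smul_eq_mul, nsmul_eq_mul, derivative_X, Derivation.map_one_eq_zero, map_zero, D_integ]
    try algebra
  · simp only [Phi, Part, tup0, tup1, Gp.cusp, sloc, Aop, tw, sc, th_eq, dd_eq, C_eq,
      Matrix.cons_val, Fin.zero_eta, Fin.mk_one, Fin.reduceFinMk, Fin.isValue, map_add, map_sub,
      map_neg, Derivation.map_algebraMap, Derivation.leibniz, Derivation.leibniz_pow,
      smul_eq_mul, nsmul_eq_mul, derivative_X, Derivation.map_one_eq_zero, map_zero, D_integ]
    try algebra
  · simp only [Phi, Part, tup0, tup1, Gp.cusp, sloc, Aop, tw, sc, th_eq, dd_eq, C_eq,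
      Matrix.cons_val, Fin.zero_eta, Fin.mk_one, Fin.reduceFinMk, Fin.isValue, map_add, map_sub,
      map_neg, Derivation.map_algebraMap, Derivation.leibniz, Derivation.leibniz_pow,
      smul_eq_mul, nsmul_eq_mul, derivative_X, Derivation.map_one_eq_zero, map_zero, D_integ]
    try algebra

theorem flat_v8 (x : ℚ) (j : Fin 8) : sloc (Gp.cusp .v8) * (th (Phi x .v8 j) + Part .v8 j)
    = Aop (Gp.cusp .v8) (Phi x .v8) j := by
  fin_cases j
  · simp only [Phi, Part, tup0, tup1, Gp.cusp, sloc, Aop, tw, sc, th_eq, dd_eq, C_eq,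
      Matrix.cons_val, Fin.zero_eta, Fin.mk_one, Fin.reduceFinMk, Fin.isValue, map_add, map_sub,
      map_neg, Derivation.map_algebraMap, Derivation.leibniz, Derivation.leibniz_pow,
      smul_eq_mul, nsmul_eq_mul, derivative_X, Derivation.map_one_eq_zero, map_zero, D_integ]
    try algebra
  · simp only [Phi, Part, tup0, tup1, Gp.cusp, sloc, Aop, tw, sc, th_eq, dd_eq, C_eq,
      Matrix.cons_val, Fin.zero_eta, Fin.mk_one, Fin.reduceFinMk, Fin.isValue, map_add, map_sub,
      map_neg, Derivation.map_algebraMap, Derivation.leibniz, Derivation.leibniz_pow,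
      smul_eq_mul, nsmul_eq_mul, derivative_X, Derivation.map_one_eq_zero, map_zero, D_integ]
    try algebra
  · simp only [Phi, Part, tup0, tup1, Gp.cusp, sloc, Aop, tw, sc, th_eq, dd_eq, C_eq,
      Matrix.cons_val, Fin.zero_eta, Fin.mk_one, Fin.reduceFinMk, Fin.isValue, map_add, map_sub,
      map_neg, Derivation.map_algebraMap, Derivation.leibniz, Derivation.leibniz_pow,
      smul_eq_mul, nsmul_eq_mul, derivative_X, Derivation.map_one_eq_zero, map_zero, D_integ]
    try algebra
  · simp only [Phi, Part, tup0, tup1, Gp.cusp, sloc, Aop, tw, sc, th_eq, dd_eq, C_eq,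
      Matrix.cons_val, Fin.zero_eta, Fin.mk_one, Fin.reduceFinMk, Fin.isValue, map_add, map_sub,
      map_neg, Derivation.map_algebraMap, Derivation.leibniz, Derivation.leibniz_pow,
      smul_eq_mul, nsmul_eq_mul, derivative_X, Derivation.map_one_eq_zero, map_zero, D_integ]
    try algebra
  · simp only [Phi, Part, tup0, tup1, Gp.cusp, sloc, Aop, tw, sc, th_eq, dd_eq, C_eq,
      Matrix.cons_val, Fin.zero_eta, Fin.mk_one, Fin.reduceFinMk, Fin.isValue, map_add, map_sub,
      map_neg, Derivation.map_algebraMap, Derivation.leibniz, Derivation.leibniz_pow,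
      smul_eq_mul, nsmul_eq_mul, derivative_X, Derivation.map_one_eq_zero, map_zero, D_integ]
    try algebra
  · simp only [Phi, Part, tup0, tup1, Gp.cusp, sloc, Aop, tw, sc, th_eq, dd_eq, C_eq,
      Matrix.cons_val, Fin.zero_eta, Fin.mk_one, Fin.reduceFinMk, Fin.isValue, map_add, map_sub,
      map_neg, Derivation.map_algebraMap, Derivation.leibniz, Derivation.leibniz_pow,
      smul_eq_mul, nsmul_eq_mul, derivative_X, Derivation.map_one_eq_zero, map_zero, D_integ]
    try algebra
  · simp only [Phi, Part, tup0, tup1, Gp.cusp, sloc, Aop, tw, sc, th_eq, dd_eq, C_eq,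
      Matrix.cons_val, Fin.zero_eta, Fin.mk_one, Fin.reduceFinMk, Fin.isValue, map_add, map_sub,
      map_neg, Derivation.map_algebraMap, Derivation.leibniz, Derivation.leibniz_pow,
      smul_eq_mul, nsmul_eq_mul, derivative_X, Derivation.map_one_eq_zero, map_zero, D_integ]
    try algebra
  · simp only [Phi, Part, tup0, tup1, Gp.cusp, sloc, Aop, tw, sc, th_eq, dd_eq, C_eq,
      Matrix.cons_val, Fin.zero_eta, Fin.mk_one, Fin.reduceFinMk, Fin.isValue, map_add, map_sub,
      map_neg, Derivation.map_algebraMap, Derivation.leibniz, Derivation.leibniz_pow,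
      smul_eq_mul, nsmul_eq_mul, derivative_X, Derivation.map_one_eq_zero, map_zero, D_integ]
    linear_combination (norm := algebra) (-(X * (1 - X))) * K_D

theorem flat_vb (x : ℚ) (j : Fin 8) : sloc (Gp.cusp .vb) * (th (Phi x .vb j) + Part .vb j)
    = Aop (Gp.cusp .vb) (Phi x .vb) j := by
  fin_cases j
  · simp only [Phi, Part, tup0, tup1, Gp.cusp, sloc, Aop, tw, sc, th_eq, dd_eq, C_eq,
      Matrix.cons_val, Fin.zero_eta, Fin.mk_one, Fin.reduceFinMk, Fin.isValue, map_add, map_sub,
      map_neg, Derivation.map_algebraMap, Derivation.leibniz, Derivation.leibniz_pow,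
      smul_eq_mul, nsmul_eq_mul, derivative_X, Derivation.map_one_eq_zero, map_zero, D_integ]
    try algebra
  · simp only [Phi, Part, tup0, tup1, Gp.cusp, sloc, Aop, tw, sc, th_eq, dd_eq, C_eq,
      Matrix.cons_val, Fin.zero_eta, Fin.mk_one, Fin.reduceFinMk, Fin.isValue, map_add, map_sub,
      map_neg, Derivation.map_algebraMap, Derivation.leibniz, Derivation.leibniz_pow,
      smul_eq_mul, nsmul_eq_mul, derivative_X, Derivation.map_one_eq_zero, map_zero, D_integ]
    try algebra
  · simp only [Phi, Part, tup0, tup1, Gp.cusp, sloc, Aop, tw, sc, th_eq, dd_eq, C_eq,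
      Matrix.cons_val, Fin.zero_eta, Fin.mk_one, Fin.reduceFinMk, Fin.isValue, map_add, map_sub,
      map_neg, Derivation.map_algebraMap, Derivation.leibniz, Derivation.leibniz_pow,
      smul_eq_mul, nsmul_eq_mul, derivative_X, Derivation.map_one_eq_zero, map_zero, D_integ]
    try algebra
  · simp only [Phi, Part, tup0, tup1, Gp.cusp, sloc, Aop, tw, sc, th_eq, dd_eq, C_eq,
      Matrix.cons_val, Fin.zero_eta, Fin.mk_one, Fin.reduceFinMk, Fin.isValue, map_add, map_sub,
      map_neg, Derivation.map_algebraMap, Derivation.leibniz, Derivation.leibniz_pow,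
      smul_eq_mul, nsmul_eq_mul, derivative_X, Derivation.map_one_eq_zero, map_zero, D_integ]
    try algebra
  · simp only [Phi, Part, tup0, tup1, Gp.cusp, sloc, Aop, tw, sc, th_eq, dd_eq, C_eq,
      Matrix.cons_val, Fin.zero_eta, Fin.mk_one, Fin.reduceFinMk, Fin.isValue, map_add, map_sub,
      map_neg, Derivation.map_algebraMap, Derivation.leibniz, Derivation.leibniz_pow,
      smul_eq_mul, nsmul_eq_mul, derivative_X, Derivation.map_one_eq_zero, map_zero, D_integ]
    linear_combination (norm := algebra) (1 : ℚ) • (-(X * (1 - X))) * D_lgp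
  · simp only [Phi, Part, tup0, tup1, Gp.cusp, sloc, Aop, tw, sc, th_eq, dd_eq, C_eq,
      Matrix.cons_val, Fin.zero_eta, Fin.mk_one, Fin.reduceFinMk, Fin.isValue, map_add, map_sub,
      map_neg, Derivation.map_algebraMap, Derivation.leibniz, Derivation.leibniz_pow,
      smul_eq_mul, nsmul_eq_mul, derivative_X, Derivation.map_one_eq_zero, map_zero, D_integ]
    linear_combination (norm := algebra) (1 : ℚ) • (-(X * (1 + X))) * D_lgm
  · simp only [Phi, Part, tup0, tup1, Gp.cusp, sloc, Aop, tw, sc, th_eq, dd_eq, C_eq,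
      Matrix.cons_val, Fin.zero_eta, Fin.mk_one, Fin.reduceFinMk, Fin.isValue, map_add, map_sub,
      map_neg, Derivation.map_algebraMap, Derivation.leibniz, Derivation.leibniz_pow,
      smul_eq_mul, nsmul_eq_mul, derivative_X, Derivation.map_one_eq_zero, map_zero, D_integ]
    try algebra
  · simp only [Phi, Part, tup0, tup1, Gp.cusp, sloc, Aop, tw, sc, th_eq, dd_eq, C_eq,
      Matrix.cons_val, Fin.zero_eta, Fin.mk_one, Fin.reduceFinMk, Fin.isValue, map_add, map_sub,
      map_neg, Derivation.map_algebraMap, Derivation.leibniz, Derivation.leibniz_pow,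
      smul_eq_mul, nsmul_eq_mul, derivative_X, Derivation.map_one_eq_zero, map_zero, D_integ]
    try algebra

theorem flat_x2 (x : ℚ) (j : Fin 8) : sloc (Gp.cusp .x2) * (th (Phi x .x2 j) + Part .x2 j)
    = Aop (Gp.cusp .x2) (Phi x .x2) j := by
  fin_cases j
  · simp only [Phi, Part, tup0, tup1, Gp.cusp, sloc, Aop, tw, sc, th_eq, dd_eq, C_eq,
      Matrix.cons_val, Fin.zero_eta, Fin.mk_one, Fin.reduceFinMk, Fin.isValue, map_add, map_sub,
      map_neg, Derivation.map_algebraMap, Derivation.leibniz, Derivation.leibniz_pow,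
      smul_eq_mul, nsmul_eq_mul, derivative_X, Derivation.map_one_eq_zero, map_zero, D_integ]
    try algebra
  · simp only [Phi, Part, tup0, tup1, Gp.cusp, sloc, Aop, tw, sc, th_eq, dd_eq, C_eq,
      Matrix.cons_val, Fin.zero_eta, Fin.mk_one, Fin.reduceFinMk, Fin.isValue, map_add, map_sub,
      map_neg, Derivation.map_algebraMap, Derivation.leibniz, Derivation.leibniz_pow,
      smul_eq_mul, nsmul_eq_mul, derivative_X, Derivation.map_one_eq_zero, map_zero, D_integ]
    try algebra
  · simp only [Phi, Part, tup0, tup1, Gp.cusp, sloc, Aop, tw, sc, th_eq, dd_eq, C_eq,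
      Matrix.cons_val, Fin.zero_eta, Fin.mk_one, Fin.reduceFinMk, Fin.isValue, map_add, map_sub,
      map_neg, Derivation.map_algebraMap, Derivation.leibniz, Derivation.leibniz_pow,
      smul_eq_mul, nsmul_eq_mul, derivative_X, Derivation.map_one_eq_zero, map_zero, D_integ]
    try algebra
  · simp only [Phi, Part, tup0, tup1, Gp.cusp, sloc, Aop, tw, sc, th_eq, dd_eq, C_eq,
      Matrix.cons_val, Fin.zero_eta, Fin.mk_one, Fin.reduceFinMk, Fin.isValue, map_add, map_sub,
      map_neg, Derivation.map_algebraMap, Derivation.leibniz, Derivation.leibniz_pow,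
      smul_eq_mul, nsmul_eq_mul, derivative_X, Derivation.map_one_eq_zero, map_zero, D_integ]
    try algebra
  · simp only [Phi, Part, tup0, tup1, Gp.cusp, sloc, Aop, tw, sc, th_eq, dd_eq, C_eq,
      Matrix.cons_val, Fin.zero_eta, Fin.mk_one, Fin.reduceFinMk, Fin.isValue, map_add, map_sub,
      map_neg, Derivation.map_algebraMap, Derivation.leibniz, Derivation.leibniz_pow,
      smul_eq_mul, nsmul_eq_mul, derivative_X, Derivation.map_one_eq_zero, map_zero, D_integ]
    try algebra
  · simp only [Phi, Part, tup0, tup1, Gp.cusp, sloc, Aop, tw, sc, th_eq, dd_eq, C_eq,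
      Matrix.cons_val, Fin.zero_eta, Fin.mk_one, Fin.reduceFinMk, Fin.isValue, map_add, map_sub,
      map_neg, Derivation.map_algebraMap, Derivation.leibniz, Derivation.leibniz_pow,
      smul_eq_mul, nsmul_eq_mul, derivative_X, Derivation.map_one_eq_zero, map_zero, D_integ]
    try algebra
  · simp only [Phi, Part, tup0, tup1, Gp.cusp, sloc, Aop, tw, sc, th_eq, dd_eq, C_eq,
      Matrix.cons_val, Fin.zero_eta, Fin.mk_one, Fin.reduceFinMk, Fin.isValue, map_add, map_sub,
      map_neg, Derivation.map_algebraMap, Derivation.leibniz, Derivation.leibniz_pow,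
      smul_eq_mul, nsmul_eq_mul, derivative_X, Derivation.map_one_eq_zero, map_zero, D_integ]
    try algebra
  · simp only [Phi, Part, tup0, tup1, Gp.cusp, sloc, Aop, tw, sc, th_eq, dd_eq, C_eq,
      Matrix.cons_val, Fin.zero_eta, Fin.mk_one, Fin.reduceFinMk, Fin.isValue, map_add, map_sub,
      map_neg, Derivation.map_algebraMap, Derivation.leibniz, Derivation.leibniz_pow,
      smul_eq_mul, nsmul_eq_mul, derivative_X, Derivation.map_one_eq_zero, map_zero, D_integ]
    linear_combination (norm := algebra) (1 / 8 : ℚ) • (X * (1 + X) * (1 - X)) * K_D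

theorem flat_xl (x : ℚ) (j : Fin 8) : sloc (Gp.cusp .xl) * (th (Phi x .xl j) + Part .xl j)
    = Aop (Gp.cusp .xl) (Phi x .xl) j := by
  fin_cases j
  · simp only [Phi, Part, tup0, tup1, Gp.cusp, sloc, Aop, tw, sc, th_eq, dd_eq, C_eq,
      Matrix.cons_val, Fin.zero_eta, Fin.mk_one, Fin.reduceFinMk, Fin.isValue, map_add, map_sub,
      map_neg, Derivation.map_algebraMap, Derivation.leibniz, Derivation.leibniz_pow,
      smul_eq_mul, nsmul_eq_mul, derivative_X, Derivation.map_one_eq_zero, map_zero, D_integ]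
    try algebra
  · simp only [Phi, Part, tup0, tup1, Gp.cusp, sloc, Aop, tw, sc, th_eq, dd_eq, C_eq,
      Matrix.cons_val, Fin.zero_eta, Fin.mk_one, Fin.reduceFinMk, Fin.isValue, map_add, map_sub,
      map_neg, Derivation.map_algebraMap, Derivation.leibniz, Derivation.leibniz_pow,
      smul_eq_mul, nsmul_eq_mul, derivative_X, Derivation.map_one_eq_zero, map_zero, D_integ]
    try algebra
  · simp only [Phi, Part, tup0, tup1, Gp.cusp, sloc, Aop, tw, sc, th_eq, dd_eq, C_eq,
      Matrix.cons_val, Fin.zero_eta, Fin.mk_one, Fin.reduceFinMk, Fin.isValue, map_add, map_sub,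
      map_neg, Derivation.map_algebraMap, Derivation.leibniz, Derivation.leibniz_pow,
      smul_eq_mul, nsmul_eq_mul, derivative_X, Derivation.map_one_eq_zero, map_zero, D_integ]
    try algebra
  · simp only [Phi, Part, tup0, tup1, Gp.cusp, sloc, Aop, tw, sc, th_eq, dd_eq, C_eq,
      Matrix.cons_val, Fin.zero_eta, Fin.mk_one, Fin.reduceFinMk, Fin.isValue, map_add, map_sub,
      map_neg, Derivation.map_algebraMap, Derivation.leibniz, Derivation.leibniz_pow,
      smul_eq_mul, nsmul_eq_mul, derivative_X, Derivation.map_one_eq_zero, map_zero, D_integ]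
    try algebra
  · simp only [Phi, Part, tup0, tup1, Gp.cusp, sloc, Aop, tw, sc, th_eq, dd_eq, C_eq,
      Matrix.cons_val, Fin.zero_eta, Fin.mk_one, Fin.reduceFinMk, Fin.isValue, map_add, map_sub,
      map_neg, Derivation.map_algebraMap, Derivation.leibniz, Derivation.leibniz_pow,
      smul_eq_mul, nsmul_eq_mul, derivative_X, Derivation.map_one_eq_zero, map_zero, D_integ]
    try algebra
  · simp only [Phi, Part, tup0, tup1, Gp.cusp, sloc, Aop, tw, sc, th_eq, dd_eq, C_eq,
      Matrix.cons_val, Fin.zero_eta, Fin.mk_one, Fin.reduceFinMk, Fin.isValue, map_add, map_sub,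
      map_neg, Derivation.map_algebraMap, Derivation.leibniz, Derivation.leibniz_pow,
      smul_eq_mul, nsmul_eq_mul, derivative_X, Derivation.map_one_eq_zero, map_zero, D_integ]
    try algebra
  · simp only [Phi, Part, tup0, tup1, Gp.cusp, sloc, Aop, tw, sc, th_eq, dd_eq, C_eq,
      Matrix.cons_val, Fin.zero_eta, Fin.mk_one, Fin.reduceFinMk, Fin.isValue, map_add, map_sub,
      map_neg, Derivation.map_algebraMap, Derivation.leibniz, Derivation.leibniz_pow,
      smul_eq_mul, nsmul_eq_mul, derivative_X, Derivation.map_one_eq_zero, map_zero, D_integ]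
    try algebra
  · simp only [Phi, Part, tup0, tup1, Gp.cusp, sloc, Aop, tw, sc, th_eq, dd_eq, C_eq,
      Matrix.cons_val, Fin.zero_eta, Fin.mk_one, Fin.reduceFinMk, Fin.isValue, map_add, map_sub,
      map_neg, Derivation.map_algebraMap, Derivation.leibniz, Derivation.leibniz_pow,
      smul_eq_mul, nsmul_eq_mul, derivative_X, Derivation.map_one_eq_zero, map_zero, D_integ]
    linear_combination (norm := algebra) (-(X * (1 + X) * (1 - X))) * K_D

theorem flat_x1 (x : ℚ) (j : Fin 8) : sloc (Gp.cusp .x1) * (th (Phi x .x1 j) + Part .x1 j)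
    = Aop (Gp.cusp .x1) (Phi x .x1) j := by
  fin_cases j
  · simp only [Phi, Part, tup0, tup1, Gp.cusp, sloc, Aop, tw, sc, th_eq, dd_eq, C_eq,
      Matrix.cons_val, Fin.zero_eta, Fin.mk_one, Fin.reduceFinMk, Fin.isValue, map_add, map_sub,
      map_neg, Derivation.map_algebraMap, Derivation.leibniz, Derivation.leibniz_pow,
      smul_eq_mul, nsmul_eq_mul, derivative_X, Derivation.map_one_eq_zero, map_zero, D_integ]
    try algebra
  · simp only [Phi, Part, tup0, tup1, Gp.cusp, sloc, Aop, tw, sc, th_eq, dd_eq, C_eq,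
      Matrix.cons_val, Fin.zero_eta, Fin.mk_one, Fin.reduceFinMk, Fin.isValue, map_add, map_sub,
      map_neg, Derivation.map_algebraMap, Derivation.leibniz, Derivation.leibniz_pow,
      smul_eq_mul, nsmul_eq_mul, derivative_X, Derivation.map_one_eq_zero, map_zero, D_integ]
    try algebra
  · simp only [Phi, Part, tup0, tup1, Gp.cusp, sloc, Aop, tw, sc, th_eq, dd_eq, C_eq,
      Matrix.cons_val, Fin.zero_eta, Fin.mk_one, Fin.reduceFinMk, Fin.isValue, map_add, map_sub,
      map_neg, Derivation.map_algebraMap, Derivation.leibniz, Derivation.leibniz_pow,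
      smul_eq_mul, nsmul_eq_mul, derivative_X, Derivation.map_one_eq_zero, map_zero, D_integ]
    try algebra
  · simp only [Phi, Part, tup0, tup1, Gp.cusp, sloc, Aop, tw, sc, th_eq, dd_eq, C_eq,
      Matrix.cons_val, Fin.zero_eta, Fin.mk_one, Fin.reduceFinMk, Fin.isValue, map_add, map_sub,
      map_neg, Derivation.map_algebraMap, Derivation.leibniz, Derivation.leibniz_pow,
      smul_eq_mul, nsmul_eq_mul, derivative_X, Derivation.map_one_eq_zero, map_zero, D_integ]
    linear_combination (norm := algebra) (-1 : ℚ) • (2 * (X * (1 - X))) * D_lgp + (-1 : ℚ) • (2 * (X * (1 + X))) * D_lgm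
  · simp only [Phi, Part, tup0, tup1, Gp.cusp, sloc, Aop, tw, sc, th_eq, dd_eq, C_eq,
      Matrix.cons_val, Fin.zero_eta, Fin.mk_one, Fin.reduceFinMk, Fin.isValue, map_add, map_sub,
      map_neg, Derivation.map_algebraMap, Derivation.leibniz, Derivation.leibniz_pow,
      smul_eq_mul, nsmul_eq_mul, derivative_X, Derivation.map_one_eq_zero, map_zero, D_integ]
    linear_combination (norm := algebra) (-1 : ℚ) • (2 * (X * (1 + X))) * D_lgm
  · simp only [Phi, Part, tup0, tup1, Gp.cusp, sloc, Aop, tw, sc, th_eq, dd_eq, C_eq,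
      Matrix.cons_val, Fin.zero_eta, Fin.mk_one, Fin.reduceFinMk, Fin.isValue, map_add, map_sub,
      map_neg, Derivation.map_algebraMap, Derivation.leibniz, Derivation.leibniz_pow,
      smul_eq_mul, nsmul_eq_mul, derivative_X, Derivation.map_one_eq_zero, map_zero, D_integ]
    linear_combination (norm := algebra) (1 : ℚ) • (2 * (X * (1 + X))) * D_lgm
  · simp only [Phi, Part, tup0, tup1, Gp.cusp, sloc, Aop, tw, sc, th_eq, dd_eq, C_eq,
      Matrix.cons_val, Fin.zero_eta, Fin.mk_one, Fin.reduceFinMk, Fin.isValue, map_add, map_sub,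
      map_neg, Derivation.map_algebraMap, Derivation.leibniz, Derivation.leibniz_pow,
      smul_eq_mul, nsmul_eq_mul, derivative_X, Derivation.map_one_eq_zero, map_zero, D_integ]
    try algebra
  · simp only [Phi, Part, tup0, tup1, Gp.cusp, sloc, Aop, tw, sc, th_eq, dd_eq, C_eq,
      Matrix.cons_val, Fin.zero_eta, Fin.mk_one, Fin.reduceFinMk, Fin.isValue, map_add, map_sub,
      map_neg, Derivation.map_algebraMap, Derivation.leibniz, Derivation.leibniz_pow,
      smul_eq_mul, nsmul_eq_mul, derivative_X, Derivation.map_one_eq_zero, map_zero, D_integ]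
    linear_combination (norm := algebra) (1 / 4 : ℚ) • (X * (1 + X) * (1 - X)) * M_D

theorem flat17 (x : ℚ) (g : Gp) (j : Fin 8) : sloc g.cusp * (th (Phi x g j) + Part g j)
    = Aop g.cusp (Phi x g) j := by
  cases g
  · exact flat_z1 x j
  · exact flat_zl x j
  · exact flat_z8 x j
  · exact flat_zab x j
  · exact flat_w1 x j
  · exact flat_wl x j
  · exact flat_wy x j
  · exact flat_w8 x j
  · exact flat_wab x j
  · exact flat_wf7 x j
  · exact flat_v2 x j
  · exact flat_vl x j
  · exact flat_v8 x j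
  · exact flat_vb x j
  · exact flat_x2 x j
  · exact flat_xl x j
  · exact flat_x1 x j

end Vale.Agent.P030.H605
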