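import Vale.Agent.P030.H782.Iface

/-!
# P030, NV: the values at `t = 0` of the 17 groups
-/

open PowerSeries

namespace Vale.Agent.P030.H605

open Vale.Agent.P030.T Vale.Agent.P030.H782

theorem cc_dd (f : ℚ⟦X⟧) : constantCoeff (dd f) = coeff 1 f := by
  rw [← coeff_zero_eq_constantCoeff_apply]
  simp [dd]

theorem cc_th (f : ℚ⟦X⟧) : constantCoeff (th f) = 0 := by
  rw [← coeff_zero_eq_constantCoeff_apply]
  simp [th]

theorem cc_integ (f : ℚ⟦X⟧) : constantCoeff (integ f) = 0 := by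
  rw [← coeff_zero_eq_constantCoeff_apply]
  simp [integ]

theorem coeff_one_sub_X_mul (f : ℚ⟦X⟧) :
    coeff 1 ((1 - X) * f) = coeff 1 f - constantCoeff f := by
  rw [sub_mul, one_mul, map_sub, show (1 : ℕ) = 0 + 1 from rfl, coeff_succ_X_mul,
    coeff_zero_eq_constantCoeff_apply]

theorem cc_tw (f : ℚ⟦X⟧) : constantCoeff (tw f) = 1 / 2 * (coeff 1 f - constantCoeff f) := by
  simp only [tw, sc, map_mul, map_add, map_one, constantCoeff_X, cc_dd, coeff_one_sub_X_mul,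
    constantCoeff_C]
  ring

theorem cc_K : constantCoeff serK = 1 := by
  rw [← coeff_zero_eq_constantCoeff_apply]; simp [serK]
theorem c1_K : coeff 1 serK = 0 := by simp [serK]
theorem cc_B : constantCoeff serB = 0 := by
  rw [← coeff_zero_eq_constantCoeff_apply]; simp [serB, cB]
theorem cc_B2 : constantCoeff serB2 = 0 := by
  rw [← coeff_zero_eq_constantCoeff_apply]; simp [serB2, cB2]
theorem c1_B2 : coeff 1 serB2 = -1 / 4 := by simp [serB2, cB2]
theorem cc_M : constantCoeff serM = 0 := by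
  rw [← coeff_zero_eq_constantCoeff_apply]; simp [serM, cMs]
theorem cc_lgm : constantCoeff lgm = 0 := by
  rw [← coeff_zero_eq_constantCoeff_apply]; simp [lgm]
theorem cc_lgp : constantCoeff lgp = 0 := by
  rw [← coeff_zero_eq_constantCoeff_apply]; simp [lgp]
theorem cc_li2 : constantCoeff li2 = 0 := by
  rw [← coeff_zero_eq_constantCoeff_apply]; simp [li2]

/-- the value of the functional `ini x g` on `v` -/
noncomputable def val (x : ℚ) (g : Gp) (v : Fin 8 → ℚ) : ℚ := ∑ j, ini x g j * v j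


theorem val_z1 (x : ℚ) (v : Fin 8 → ℚ) : val x .z1 v = v 0 - x * v 6 := by
  rw [val, Fin.sum_univ_eight]
  simp only [ini, tup, tup0, tup1, sc, Matrix.cons_val, map_add, map_sub, map_mul, map_neg,
    map_one, map_zero, map_pow, constantCoeff_C, constantCoeff_X, cc_th, cc_integ, cc_tw,
    cc_K, cc_B, cc_B2, cc_M, cc_lgm, cc_lgp, cc_li2, c1_K, c1_B2, cc_dd, map_ofNat]
  ring
theorem val_zl (x : ℚ) (v : Fin 8 → ℚ) : val x .zl v = v 1 := by
  rw [val, Fin.sum_univ_eight]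
  simp only [ini, tup, tup0, tup1, sc, Matrix.cons_val, map_add, map_sub, map_mul, map_neg,
    map_one, map_zero, map_pow, constantCoeff_C, constantCoeff_X, cc_th, cc_integ, cc_tw,
    cc_K, cc_B, cc_B2, cc_M, cc_lgm, cc_lgp, cc_li2, c1_K, c1_B2, cc_dd, map_ofNat]
  ring
theorem val_z8 (x : ℚ) (v : Fin 8 → ℚ) : val x .z8 v = v 6 := by
  rw [val, Fin.sum_univ_eight]
  simp only [ini, tup, tup0, tup1, sc, Matrix.cons_val, map_add, map_sub, map_mul, map_neg,
    map_one, map_zero, map_pow, constantCoeff_C, constantCoeff_X, cc_th, cc_integ, cc_tw,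
    cc_K, cc_B, cc_B2, cc_M, cc_lgm, cc_lgp, cc_li2, c1_K, c1_B2, cc_dd, map_ofNat]
  ring
theorem val_zab (x : ℚ) (v : Fin 8 → ℚ) : val x .zab v = v 3 := by
  rw [val, Fin.sum_univ_eight]
  simp only [ini, tup, tup0, tup1, sc, Matrix.cons_val, map_add, map_sub, map_mul, map_neg,
    map_one, map_zero, map_pow, constantCoeff_C, constantCoeff_X, cc_th, cc_integ, cc_tw,
    cc_K, cc_B, cc_B2, cc_M, cc_lgm, cc_lgp, cc_li2, c1_K, c1_B2, cc_dd, map_ofNat]
  ring
theorem val_w1 (x : ℚ) (v : Fin 8 → ℚ) : val x .w1 v = v 0 - 1 / 8 * v 7 := by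
  rw [val, Fin.sum_univ_eight]
  simp only [ini, tup, tup0, tup1, sc, Matrix.cons_val, map_add, map_sub, map_mul, map_neg,
    map_one, map_zero, map_pow, constantCoeff_C, constantCoeff_X, cc_th, cc_integ, cc_tw,
    cc_K, cc_B, cc_B2, cc_M, cc_lgm, cc_lgp, cc_li2, c1_K, c1_B2, cc_dd, map_ofNat]
  ring
theorem val_wl (x : ℚ) (v : Fin 8 → ℚ) : val x .wl v = v 1 - v 2 := by
  rw [val, Fin.sum_univ_eight]
  simp only [ini, tup, tup0, tup1, sc, Matrix.cons_val, map_add, map_sub, map_mul, map_neg,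
    map_one, map_zero, map_pow, constantCoeff_C, constantCoeff_X, cc_th, cc_integ, cc_tw,
    cc_K, cc_B, cc_B2, cc_M, cc_lgm, cc_lgp, cc_li2, c1_K, c1_B2, cc_dd, map_ofNat]
  ring
theorem val_wy (x : ℚ) (v : Fin 8 → ℚ) :
    val x .wy v = -4 / 3 * v 3 - 4 / 3 * v 4 - v 6 + 1 / 2 * v 7 := by
  rw [val, Fin.sum_univ_eight]
  simp only [ini, tup, tup0, tup1, sc, Matrix.cons_val, map_add, map_sub, map_mul, map_neg,
    map_one, map_zero, map_pow, constantCoeff_C, constantCoeff_X, cc_th, cc_integ, cc_tw,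
    cc_K, cc_B, cc_B2, cc_M, cc_lgm, cc_lgp, cc_li2, c1_K, c1_B2, cc_dd, map_ofNat]
  ring
theorem val_w8 (x : ℚ) (v : Fin 8 → ℚ) : val x .w8 v = v 6 - 1 / 2 * v 7 := by
  rw [val, Fin.sum_univ_eight]
  simp only [ini, tup, tup0, tup1, sc, Matrix.cons_val, map_add, map_sub, map_mul, map_neg,
    map_one, map_zero, map_pow, constantCoeff_C, constantCoeff_X, cc_th, cc_integ, cc_tw,
    cc_K, cc_B, cc_B2, cc_M, cc_lgm, cc_lgp, cc_li2, c1_K, c1_B2, cc_dd, map_ofNat]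
  ring
theorem val_wab (x : ℚ) (v : Fin 8 → ℚ) : val x .wab v = v 3 := by
  rw [val, Fin.sum_univ_eight]
  simp only [ini, tup, tup0, tup1, sc, Matrix.cons_val, map_add, map_sub, map_mul, map_neg,
    map_one, map_zero, map_pow, constantCoeff_C, constantCoeff_X, cc_th, cc_integ, cc_tw,
    cc_K, cc_B, cc_B2, cc_M, cc_lgm, cc_lgp, cc_li2, c1_K, c1_B2, cc_dd, map_ofNat]
  ring
theorem val_wf7 (x : ℚ) (v : Fin 8 → ℚ) : val x .wf7 v = v 5 := by
  rw [val, Fin.sum_univ_eight]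
  simp only [ini, tup, tup0, tup1, sc, Matrix.cons_val, map_add, map_sub, map_mul, map_neg,
    map_one, map_zero, map_pow, constantCoeff_C, constantCoeff_X, cc_th, cc_integ, cc_tw,
    cc_K, cc_B, cc_B2, cc_M, cc_lgm, cc_lgp, cc_li2, c1_K, c1_B2, cc_dd, map_ofNat]
  ring
theorem val_v2 (x : ℚ) (v : Fin 8 → ℚ) : val x .v2 v = -v 3 - v 4 + v 5 := by
  rw [val, Fin.sum_univ_eight]
  simp only [ini, tup, tup0, tup1, sc, Matrix.cons_val, map_add, map_sub, map_mul, map_neg,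
    map_one, map_zero, map_pow, constantCoeff_C, constantCoeff_X, cc_th, cc_integ, cc_tw,
    cc_K, cc_B, cc_B2, cc_M, cc_lgm, cc_lgp, cc_li2, c1_K, c1_B2, cc_dd, map_ofNat]
  ring
theorem val_vl (x : ℚ) (v : Fin 8 → ℚ) : val x .vl v = -v 4 + v 5 := by
  rw [val, Fin.sum_univ_eight]
  simp only [ini, tup, tup0, tup1, sc, Matrix.cons_val, map_add, map_sub, map_mul, map_neg,
    map_one, map_zero, map_pow, constantCoeff_C, constantCoeff_X, cc_th, cc_integ, cc_tw,
    cc_K, cc_B, cc_B2, cc_M, cc_lgm, cc_lgp, cc_li2, c1_K, c1_B2, cc_dd, map_ofNat]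
  ring
theorem val_v8 (x : ℚ) (v : Fin 8 → ℚ) : val x .v8 v = -v 6 + v 7 := by
  have h : coeff 1 (X * serK) = 1 := by
    rw [show (1 : ℕ) = 0 + 1 from rfl, coeff_succ_X_mul, coeff_zero_eq_constantCoeff_apply, cc_K]
  rw [val, Fin.sum_univ_eight]
  simp only [ini, tup, tup0, tup1, sc, Matrix.cons_val, map_add, map_sub, map_mul, map_neg,
    map_one, map_zero, map_pow, constantCoeff_C, constantCoeff_X, cc_th, cc_integ, cc_tw,
    cc_K, cc_B, cc_B2, cc_M, cc_lgm, cc_lgp, cc_li2, c1_K, c1_B2, cc_dd, map_ofNat]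
  rw [h]; ring
theorem val_vb (x : ℚ) (v : Fin 8 → ℚ) : val x .vb v = v 2 := by
  rw [val, Fin.sum_univ_eight]
  simp only [ini, tup, tup0, tup1, sc, Matrix.cons_val, map_add, map_sub, map_mul, map_neg,
    map_one, map_zero, map_pow, constantCoeff_C, constantCoeff_X, cc_th, cc_integ, cc_tw,
    cc_K, cc_B, cc_B2, cc_M, cc_lgm, cc_lgp, cc_li2, c1_K, c1_B2, cc_dd, map_ofNat]
  ring
theorem val_x2 (x : ℚ) (v : Fin 8 → ℚ) : val x .x2 v = 1 / 2 * v 5 := by
  rw [val, Fin.sum_univ_eight]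
  simp only [ini, tup, tup0, tup1, sc, Matrix.cons_val, map_add, map_sub, map_mul, map_neg,
    map_one, map_zero, map_pow, constantCoeff_C, constantCoeff_X, cc_th, cc_integ, cc_tw,
    cc_K, cc_B, cc_B2, cc_M, cc_lgm, cc_lgp, cc_li2, c1_K, c1_B2, cc_dd, map_ofNat]
  ring
theorem val_xl (x : ℚ) (v : Fin 8 → ℚ) : val x .xl v = -v 4 + v 5 := by
  rw [val, Fin.sum_univ_eight]
  simp only [ini, tup, tup0, tup1, sc, Matrix.cons_val, map_add, map_sub, map_mul, map_neg,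
    map_one, map_zero, map_pow, constantCoeff_C, constantCoeff_X, cc_th, cc_integ, cc_tw,
    cc_K, cc_B, cc_B2, cc_M, cc_lgm, cc_lgp, cc_li2, c1_K, c1_B2, cc_dd, map_ofNat]
  ring
theorem val_x1 (x : ℚ) (v : Fin 8 → ℚ) : val x .x1 v = -v 2 + 1 / 8 * v 7 := by
  rw [val, Fin.sum_univ_eight]
  simp only [ini, tup, tup0, tup1, sc, Matrix.cons_val, map_add, map_sub, map_mul, map_neg,
    map_one, map_zero, map_pow, constantCoeff_C, constantCoeff_X, cc_th, cc_integ, cc_tw,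
    cc_K, cc_B, cc_B2, cc_M, cc_lgm, cc_lgp, cc_li2, c1_K, c1_B2, cc_dd, map_ofNat]
  ring

end Vale.Agent.P030.H605
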